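import Mathlib

/-!
# A kernel box certifier by affine arithmetic: definitions

Fixed point numbers with scale `2^32`; a signed number `x` is stored as the natural number `x + 2^60`.
An affine form is `c + ∑ aᵢ εᵢ ± r` in four noise symbols.  All arithmetic is branch free on `Nat`;
a truncated subtraction is detected by the forcing operation `fQ`, which fails on `0`.
-/

set_option autoImplicit false

noncomputable section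

namespace Crest.Agent.Lib.Box

/-- affine form (all entries scaled by `2^32`; all but `r` are shifted by `2^60`) -/
structure AF where
  c : Nat
  a0 : Nat
  a1 : Nat
  a2 : Nat
  a3 : Nat
  r : Nat

local infixl:65 " +ₙ " => Nat.add
local infixl:65 " -ₙ " => Nat.sub
local infixl:70 " *ₙ " => Nat.mul
local infixl:70 " /ₙ " => Nat.div
local infixl:60 " >>ₙ " => Nat.shiftRight
local infixl:60 " <<ₙ " => Nat.shiftLeft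
local macro:max "ℓ" n:num : term => `(nat_lit $n)
local notation "BB" => nat_lit 1152921504606846976
local notation "BB1" => nat_lit 1152921504606846977
local notation "BBm" => nat_lit 1152921504606846975
local notation "ab(" x ")" => Nat.add (Nat.sub x BB) (Nat.sub BB x)

/-- force a natural number, fail on `0`, continue with the predecessor -/
def fQ (n : Nat) (k : Nat → Bool) : Bool := Nat.rec false (fun m _ => k m) n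
/-- force an affine form (every entry is given plus one) -/
def fA (c a0 a1 a2 a3 r : Nat) (k : AF → Bool) : Bool :=
  Nat.rec false (fun c _ => Nat.rec false (fun a0 _ => Nat.rec false (fun a1 _ => Nat.rec false (fun a2 _ =>
    Nat.rec false (fun a3 _ => Nat.rec false (fun r _ => k ⟨c, a0, a1, a2, a3, r⟩) r) a3) a2) a1) a0) c

/-- total radius -/
def rad (a0 a1 a2 a3 r : Nat) : Nat := ab(a0) +ₙ ab(a1) +ₙ ab(a2) +ₙ ab(a3) +ₙ r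

/-- one Newton step -/
def nw (n x : Nat) (k : Nat → Bool) : Bool :=
  Nat.rec false (fun m _ => k m) ((x +ₙ n /ₙ x +ₙ ℓ 2) >>ₙ ℓ 1)
/-- coarse size of the square root -/
def lv1 (n : Nat) : Nat :=
  Bool.rec (Bool.rec (Bool.rec (ℓ 1) (ℓ 9) (Nat.ble (ℓ 65536) n)) (Bool.rec (ℓ 17) (ℓ 25) (Nat.ble (ℓ 281474976710656) n)) (Nat.ble (ℓ 4294967296) n)) (Bool.rec (Bool.rec (ℓ 33) (ℓ 41) (Nat.ble (ℓ 1208925819614629174706176) n)) (Bool.rec (ℓ 49) (ℓ 57) (Nat.ble (ℓ 5192296858534827628530496329220096) n)) (Nat.ble (ℓ 79228162514264337593543950336) n)) (Nat.ble (ℓ 18446744073709551616) n)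
/-- fine size of the square root -/
def lv2 (n : Nat) : Nat :=
  Bool.rec (Bool.rec (Bool.rec (ℓ 3) (ℓ 6) (Nat.ble (ℓ 4) n)) (Bool.rec (ℓ 12) (ℓ 24) (Nat.ble (ℓ 64) n)) (Nat.ble (ℓ 16) n)) (Bool.rec (Bool.rec (ℓ 48) (ℓ 96) (Nat.ble (ℓ 1024) n)) (Bool.rec (ℓ 192) (ℓ 384) (Nat.ble (ℓ 16384) n)) (Nat.ble (ℓ 4096) n)) (Nat.ble (ℓ 256) n)
/-- untrusted integer square root (Newton) -/
def isq (n : Nat) (k : Nat → Bool) : Bool :=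
  fQ (lv1 n) fun h => fQ ((n >>ₙ h +ₙ h) +ₙ ℓ 1) fun m => fQ ((lv2 m <<ₙ h >>ₙ ℓ 1) +ₙ ℓ 1) fun x =>
    nw n x fun x => nw n x fun x => nw n x fun x => nw n x k
/-- lower bound of the square root from the approximation `x` -/
def sqLo (n x : Nat) (k : Nat → Bool) : Bool :=
  fQ (n /ₙ (x +ₙ ℓ 1) +ₙ ℓ 1) fun s => Bool.rec false (k s) (Nat.ble (s *ₙ s) n)
/-- upper bound of the square root -/
def isqHi (n : Nat) (k : Nat → Bool) : Bool :=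
  fQ (n +ₙ ℓ 1) fun n => isq n fun x => fQ (x +ₙ ℓ 2) fun s =>
    Bool.rec false (k s) (Nat.ble n (s *ₙ s))

def addA (A B : AF) (k : AF → Bool) : Bool :=
  AF.rec (fun c a0 a1 a2 a3 r => AF.rec (fun d b0 b1 b2 b3 s =>
    fA (c +ₙ d -ₙ BBm) (a0 +ₙ b0 -ₙ BBm) (a1 +ₙ b1 -ₙ BBm) (a2 +ₙ b2 -ₙ BBm) (a3 +ₙ b3 -ₙ BBm)
      (r +ₙ s +ₙ ℓ 1) k) B) A
def subA (A B : AF) (k : AF → Bool) : Bool :=
  AF.rec (fun c a0 a1 a2 a3 r => AF.rec (fun d b0 b1 b2 b3 s =>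
    fA (c +ₙ BB1 -ₙ d) (a0 +ₙ BB1 -ₙ b0) (a1 +ₙ BB1 -ₙ b1) (a2 +ₙ BB1 -ₙ b2) (a3 +ₙ BB1 -ₙ b3)
      (r +ₙ s +ₙ ℓ 1) k) B) A
def negA (A : AF) (k : AF → Bool) : Bool :=
  AF.rec (fun c a0 a1 a2 a3 r =>
    fA (ℓ 2305843009213693953 -ₙ c) (ℓ 2305843009213693953 -ₙ a0) (ℓ 2305843009213693953 -ₙ a1)
      (ℓ 2305843009213693953 -ₙ a2) (ℓ 2305843009213693953 -ₙ a3) (r +ₙ ℓ 1) k) A
/-- the constant `n / (d+1)` -/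
def cstA (n d : Nat) (k : AF → Bool) : Bool :=
  fQ ((n <<ₙ ℓ 32) /ₙ (d +ₙ ℓ 1) +ₙ BB1) fun c => k ⟨c, BB, BB, BB, BB, ℓ 1⟩
/-- multiplication by a natural number -/
def nmulA (n : Nat) (A : AF) (k : AF → Bool) : Bool :=
  AF.rec (fun c a0 a1 a2 a3 r => fQ (n *ₙ BB +ₙ ℓ 1) fun T =>
    fA (n *ₙ c +ₙ BB1 -ₙ T) (n *ₙ a0 +ₙ BB1 -ₙ T) (n *ₙ a1 +ₙ BB1 -ₙ T) (n *ₙ a2 +ₙ BB1 -ₙ T)
      (n *ₙ a3 +ₙ BB1 -ₙ T) (n *ₙ r +ₙ ℓ 1) k) A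
/-- division by `n + 1` -/
def ndivA (n : Nat) (A : AF) (k : AF → Bool) : Bool :=
  AF.rec (fun c a0 a1 a2 a3 r => fQ (n +ₙ ℓ 2) fun N => fQ (n *ₙ BB1 +ₙ ℓ 2) fun T =>
    fA ((c +ₙ T) /ₙ N) ((a0 +ₙ T) /ₙ N) ((a1 +ₙ T) /ₙ N) ((a2 +ₙ T) /ₙ N)
      ((a3 +ₙ T) /ₙ N) (r /ₙ N +ₙ ℓ 7) k) A
/-- multiplication by `K / 2^32`, plus a constant in `[lo, hi]` (both shifted) -/
def linP (K c a0 a1 a2 a3 r lo hi : Nat) (k : AF → Bool) : Bool :=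
  fQ (K *ₙ BB +ₙ ℓ 1) fun T =>
    fA ((K *ₙ c +ₙ ((lo +ₙ hi +ₙ ℓ 2) <<ₙ ℓ 31) -ₙ T) >>ₙ ℓ 32)
      ((K *ₙ a0 +ₙ ℓ 4951760157141521103891464192 -ₙ T) >>ₙ ℓ 32)
      ((K *ₙ a1 +ₙ ℓ 4951760157141521103891464192 -ₙ T) >>ₙ ℓ 32)
      ((K *ₙ a2 +ₙ ℓ 4951760157141521103891464192 -ₙ T) >>ₙ ℓ 32)
      ((K *ₙ a3 +ₙ ℓ 4951760157141521103891464192 -ₙ T) >>ₙ ℓ 32)
      (((K *ₙ r +ₙ ((hi -ₙ lo) <<ₙ ℓ 31)) >>ₙ ℓ 32) +ₙ ℓ 7) k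
/-- multiplication by `-K / 2^32`, plus a constant in `[lo, hi]` (both shifted) -/
def linN (K c a0 a1 a2 a3 r lo hi : Nat) (k : AF → Bool) : Bool :=
  fQ (K *ₙ BB +ₙ ℓ 4951760157141521103891464193) fun T =>
    fA ((K *ₙ BB +ₙ ((lo +ₙ hi +ₙ ℓ 2) <<ₙ ℓ 31) -ₙ K *ₙ c) >>ₙ ℓ 32)
      ((T -ₙ K *ₙ a0) >>ₙ ℓ 32) ((T -ₙ K *ₙ a1) >>ₙ ℓ 32) ((T -ₙ K *ₙ a2) >>ₙ ℓ 32)
      ((T -ₙ K *ₙ a3) >>ₙ ℓ 32)
      (((K *ₙ r +ₙ ((hi -ₙ lo) <<ₙ ℓ 31)) >>ₙ ℓ 32) +ₙ ℓ 7) k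
/-- product; `K0 = 6 B^2 + (B+1) 2^33`, `K1 = 2 B^2 + (B+1) 2^32` -/
def mulA (A B : AF) (k : AF → Bool) : Bool :=
  AF.rec (fun c a0 a1 a2 a3 r => AF.rec (fun d b0 b1 b2 b3 s =>
    fQ (ab(a0) +ₙ ℓ 1) fun x0 => fQ (ab(a1) +ₙ ℓ 1) fun x1 => fQ (ab(a2) +ₙ ℓ 1) fun x2 =>
    fQ (ab(a3) +ₙ ℓ 1) fun x3 => fQ (ab(b0) +ₙ ℓ 1) fun y0 => fQ (ab(b1) +ₙ ℓ 1) fun y1 =>
    fQ (ab(b2) +ₙ ℓ 1) fun y2 => fQ (ab(b3) +ₙ ℓ 1) fun y3 => fQ (c +ₙ d +ₙ ℓ 1) fun S =>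
    fA ((ℓ 2 *ₙ c *ₙ d +ₙ a0 *ₙ b0 +ₙ a1 *ₙ b1 +ₙ a2 *ₙ b2 +ₙ a3 *ₙ b3 +ₙ
          ℓ 7975367984613015551705884569464995840 -ₙ
          (S +ₙ S +ₙ a0 +ₙ b0 +ₙ a1 +ₙ b1 +ₙ (a2 +ₙ b2 +ₙ a3 +ₙ b3)) *ₙ BB) >>ₙ ℓ 33)
      ((c *ₙ b0 +ₙ d *ₙ a0 +ₙ ℓ 2658455996521591902949135224452153344 -ₙ (S +ₙ a0 +ₙ b0) *ₙ BB) >>ₙ ℓ 32)
      ((c *ₙ b1 +ₙ d *ₙ a1 +ₙ ℓ 2658455996521591902949135224452153344 -ₙ (S +ₙ a1 +ₙ b1) *ₙ BB) >>ₙ ℓ 32)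
      ((c *ₙ b2 +ₙ d *ₙ a2 +ₙ ℓ 2658455996521591902949135224452153344 -ₙ (S +ₙ a2 +ₙ b2) *ₙ BB) >>ₙ ℓ 32)
      ((c *ₙ b3 +ₙ d *ₙ a3 +ₙ ℓ 2658455996521591902949135224452153344 -ₙ (S +ₙ a3 +ₙ b3) *ₙ BB) >>ₙ ℓ 32)
      (((ℓ 2 *ₙ (ab(c) *ₙ s +ₙ ab(d) *ₙ r +ₙ (x0 +ₙ x1 +ₙ x2 +ₙ x3 +ₙ r) *ₙ (y0 +ₙ y1 +ₙ y2 +ₙ y3 +ₙ s)) -ₙ
          (x0 *ₙ y0 +ₙ x1 *ₙ y1 +ₙ x2 *ₙ y2 +ₙ x3 *ₙ y3)) >>ₙ ℓ 33) +ₙ ℓ 7) k) B) A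
/-- square; `K2 = B^2 + (B+1) 2^31` -/
def sqA (A : AF) (k : AF → Bool) : Bool :=
  AF.rec (fun c a0 a1 a2 a3 r =>
    fQ (rad a0 a1 a2 a3 r +ₙ ℓ 1) fun R => fQ (R *ₙ R +ₙ ℓ 1) fun R2 => fQ (ab(c) +ₙ ℓ 1) fun x =>
    fA (((ℓ 2 *ₙ x *ₙ x +ₙ R2) >>ₙ ℓ 33) +ₙ BB1)
      ((c *ₙ a0 +ₙ ℓ 1329227998260795951474567612226076672 -ₙ (c +ₙ a0) *ₙ BB) >>ₙ ℓ 31)
      ((c *ₙ a1 +ₙ ℓ 1329227998260795951474567612226076672 -ₙ (c +ₙ a1) *ₙ BB) >>ₙ ℓ 31)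
      ((c *ₙ a2 +ₙ ℓ 1329227998260795951474567612226076672 -ₙ (c +ₙ a2) *ₙ BB) >>ₙ ℓ 31)
      ((c *ₙ a3 +ₙ ℓ 1329227998260795951474567612226076672 -ₙ (c +ₙ a3) *ₙ BB) >>ₙ ℓ 31)
      (((ℓ 4 *ₙ x *ₙ r +ₙ R2) >>ₙ ℓ 33) +ₙ ℓ 7) k) A
def sqrtA (A : AF) (k : AF → Bool) : Bool :=
  AF.rec (fun c a0 a1 a2 a3 r =>
    fQ (rad a0 a1 a2 a3 r +ₙ ℓ 1) fun R => fQ (c +ₙ R -ₙ BB +ₙ ℓ 1) fun hi =>
    Bool.rec
      (isqHi (hi <<ₙ ℓ 32) fun su => fQ ((su >>ₙ ℓ 1) +ₙ ℓ 1) fun h =>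
        fQ (h +ₙ BB1) fun c' => fQ (h +ₙ ℓ 2) fun r' => k ⟨c', BB, BB, BB, BB, r'⟩)
      (fQ (c -ₙ (BB +ₙ R) +ₙ ℓ 1) fun lo =>
        fQ ((hi <<ₙ ℓ 32) +ₙ ℓ 1) fun nh => fQ ((lo <<ₙ ℓ 32) +ₙ ℓ 1) fun nl =>
        isq nh fun x => sqLo nh x fun su => nw nl x fun x => nw nl x fun x => nw nl x fun x =>
        sqLo nl x fun sl =>
        fQ (ℓ 18446744073709551616 /ₙ (sl +ₙ su +ₙ ℓ 1) +ₙ ℓ 2) fun K =>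
        fQ (sl +ₙ BB -ₙ (K *ₙ lo >>ₙ ℓ 32)) fun p => fQ (su +ₙ BB -ₙ (K *ₙ hi >>ₙ ℓ 32)) fun q =>
        fQ (p -ₙ (p -ₙ q) +ₙ ℓ 1) fun LO => fQ (ℓ 4611686018427387904 /ₙ K +ₙ ℓ 1152921504606846978) fun HI =>
        linP K c a0 a1 a2 a3 r LO HI k)
      (Nat.ble (BB +ₙ R) c)) A
def invA (A : AF) (k : AF → Bool) : Bool :=
  AF.rec (fun c a0 a1 a2 a3 r =>
    fQ (rad a0 a1 a2 a3 r +ₙ ℓ 1) fun R => fQ (c -ₙ (R +ₙ BB)) fun lo' =>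
    fQ (lo' +ₙ ℓ 2) fun lo => fQ (c +ₙ R -ₙ BB +ₙ ℓ 1) fun hi =>
    fQ (ℓ 79228162514264337593543950336 /ₙ (lo *ₙ hi) +ₙ ℓ 1) fun K =>
    fQ ((K <<ₙ ℓ 32) +ₙ ℓ 1) fun n => isq n fun x => sqLo n x fun s =>
    fQ (ℓ 18446744073709551616 /ₙ lo +ₙ (K *ₙ lo >>ₙ ℓ 32) +ₙ ℓ 1152921504606846979) fun p =>
    fQ (ℓ 18446744073709551616 /ₙ hi +ₙ (K *ₙ hi >>ₙ ℓ 32) +ₙ ℓ 1152921504606846979) fun q =>
    fQ (s +ₙ s +ₙ BB1) fun LO => fQ (p +ₙ (q -ₙ p) +ₙ ℓ 1) fun HI =>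
    linN K c a0 a1 a2 a3 r LO HI k) A
/-- `0 ≤ c - rad` -/
def nnA (A : AF) : Bool := AF.rec (fun c a0 a1 a2 a3 r => Nat.ble (rad a0 a1 a2 a3 r +ₙ BB) c) A
/-- `0 < c - rad` -/
def posA (A : AF) : Bool := AF.rec (fun c a0 a1 a2 a3 r => Nat.ble (rad a0 a1 a2 a3 r +ₙ BB1) c) A
/-- positive part -/
def ppA (A : AF) (k : AF → Bool) : Bool :=
  AF.rec (fun c a0 a1 a2 a3 r =>
    fQ (rad a0 a1 a2 a3 r +ₙ ℓ 1) fun R =>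
    Bool.rec
      (fQ (R +ₙ BB -ₙ c +ₙ ℓ 1) fun l => fQ (c +ₙ R -ₙ BB +ₙ ℓ 1) fun h =>
        fQ ((h <<ₙ ℓ 32) /ₙ (h +ₙ l) +ₙ ℓ 1) fun K =>
        fQ (K *ₙ l +ₙ ℓ 1) fun p => fQ ((ℓ 4294967296 -ₙ K) *ₙ h +ₙ ℓ 1) fun q =>
        fQ ((p +ₙ (q -ₙ p) >>ₙ ℓ 32) +ₙ ℓ 1152921504606846978) fun HI =>
        Bool.rec false (linP K c a0 a1 a2 a3 r BB HI k) (Nat.ble K (ℓ 4294967296)))
      (k ⟨c, a0, a1, a2, a3, r⟩)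
      (Nat.ble (BB +ₙ R) c)) A

/-- expressions -/
inductive Ex where
  | v (i : Nat) : Ex
  | cst (n d : Nat) : Ex
  | nat (n : Nat) : Ex
  | add (a b : Ex) : Ex
  | sub (a b : Ex) : Ex
  | neg (a : Ex) : Ex
  | nmul (n : Nat) (a : Ex) : Ex
  | ndiv (n : Nat) (a : Ex) : Ex
  | mul (a b : Ex) : Ex
  | sq (a : Ex) : Ex
  | sqrt (a : Ex) : Ex
  | inv (a : Ex) : Ex
  | pp (a : Ex) : Ex

/-- formulas -/
inductive Fm where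
  | ge (e : Ex) : Fm
  | gt (e : Ex) : Fm
  | and (f g : Fm) : Fm
  | or (f g : Fm) : Fm
  | lt (i : Nat) (e : Ex) (f : Fm) : Fm

/-- update of an environment -/
def upd {α : Type} (env : Nat → α) (i : Nat) (a : α) : Nat → α :=
  fun j => Bool.rec (env j) a (Nat.beq j i)

/-- real value of an expression (`cst n d = n / (d+1)`, `ndiv n a = a / (n+1)`, `pp a = max a 0`) -/
def Ex.val (env : Nat → ℝ) : Ex → ℝ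
  | .v i => env i
  | .cst n d => (n : ℝ) / ((d : ℝ) + 1)
  | .nat n => (n : ℝ)
  | .add a b => a.val env + b.val env
  | .sub a b => a.val env - b.val env
  | .neg a => -a.val env
  | .nmul n a => (n : ℝ) * a.val env
  | .ndiv n a => a.val env / ((n : ℝ) + 1)
  | .mul a b => a.val env * b.val env
  | .sq a => a.val env ^ 2
  | .sqrt a => Real.sqrt (a.val env)
  | .inv a => (a.val env)⁻¹
  | .pp a => max (a.val env) 0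

/-- meaning of a formula -/
def Fm.sem : Fm → (Nat → ℝ) → Prop
  | .ge e, env => 0 ≤ e.val env
  | .gt e, env => 0 < e.val env
  | .and f g, env => f.sem env ∧ g.sem env
  | .or f g, env => f.sem env ∨ g.sem env
  | .lt i e f, env => f.sem (upd env i (e.val env))

/-- evaluation on affine forms, in continuation passing style -/
def Ex.ev (env : Nat → AF) (e : Ex) : (AF → Bool) → Bool :=
  Ex.rec (motive := fun _ => (AF → Bool) → Bool)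
    (fun i k => AF.rec (fun c a0 a1 a2 a3 r => k ⟨c, a0, a1, a2, a3, r⟩) (env i))
    (fun n d k => cstA n d k)
    (fun n k => fQ ((n <<ₙ ℓ 32) +ₙ BB1) fun c => k ⟨c, BB, BB, BB, BB, ℓ 0⟩)
    (fun _ _ ra rb k => ra fun A => rb fun B => addA A B k)
    (fun _ _ ra rb k => ra fun A => rb fun B => subA A B k)
    (fun _ ra k => ra fun A => negA A k)
    (fun n _ ra k => ra fun A => nmulA n A k)
    (fun n _ ra k => ra fun A => ndivA n A k)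
    (fun _ _ ra rb k => ra fun A => rb fun B => mulA A B k)
    (fun _ ra k => ra fun A => sqA A k)
    (fun _ ra k => ra fun A => sqrtA A k)
    (fun _ ra k => ra fun A => invA A k)
    (fun _ ra k => ra fun A => ppA A k) e

/-- the check of a formula on affine forms -/
def Fm.ev (f : Fm) : (Nat → AF) → Bool :=
  Fm.rec (motive := fun _ => (Nat → AF) → Bool)
    (fun e env => e.ev env nnA)
    (fun e env => e.ev env posA)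
    (fun _ _ rf rg env => Bool.rec false (rg env) (rf env))
    (fun _ _ rf rg env => Bool.rec (rg env) true (rf env))
    (fun i e _ rf env => e.ev env fun A => rf (upd env i A)) f

/-- a box in the positive orthant, scaled by `2^32` -/
structure Bx where
  l0 : Nat
  h0 : Nat
  l1 : Nat
  h1 : Nat
  l2 : Nat
  h2 : Nat
  l3 : Nat
  h3 : Nat

/-- environment: box variables `0..3`, parameters `4..6` -/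
def mkEnv {α : Type} (x0 x1 x2 x3 t0 t1 t2 : α) : Nat → α := fun j =>
  Bool.rec (Bool.rec (Bool.rec t2 t1 (Nat.beq j (ℓ 5))) t0 (Nat.beq j (ℓ 4)))
    (Bool.rec (Bool.rec x3 x2 (Nat.beq j (ℓ 2))) (Bool.rec x1 x0 (Nat.beq j (ℓ 0))) (Nat.ble j (ℓ 1)))
    (Nat.ble j (ℓ 3))

/-- the check on one box with the parameters `tᵢ / 2^14` -/
def leaf (f : Fm) (l0 h0 l1 h1 l2 h2 l3 h3 t0 t1 t2 : Nat) : Bool :=
  fQ ((l0 +ₙ h0 >>ₙ ℓ 1) +ₙ BB1) fun m0 => fQ ((l1 +ₙ h1 >>ₙ ℓ 1) +ₙ BB1) fun m1 =>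
  fQ ((l2 +ₙ h2 >>ₙ ℓ 1) +ₙ BB1) fun m2 => fQ ((l3 +ₙ h3 >>ₙ ℓ 1) +ₙ BB1) fun m3 =>
  fQ (h0 +ₙ ℓ 2305843009213693953 -ₙ m0) fun w0 => fQ (h1 +ₙ ℓ 2305843009213693953 -ₙ m1) fun w1 =>
  fQ (h2 +ₙ ℓ 2305843009213693953 -ₙ m2) fun w2 => fQ (h3 +ₙ ℓ 2305843009213693953 -ₙ m3) fun w3 =>
  fQ ((t0 <<ₙ ℓ 18) +ₙ BB1) fun t0 => fQ ((t1 <<ₙ ℓ 18) +ₙ BB1) fun t1 => fQ ((t2 <<ₙ ℓ 18) +ₙ BB1) fun t2 =>
  f.ev (mkEnv ⟨m0, w0, BB, BB, BB, ℓ 0⟩ ⟨m1, BB, w1, BB, BB, ℓ 0⟩ ⟨m2, BB, BB, w2, BB, ℓ 0⟩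
    ⟨m3, BB, BB, BB, w3, ℓ 0⟩ ⟨t0, BB, BB, BB, BB, ℓ 0⟩ ⟨t1, BB, BB, BB, BB, ℓ 0⟩ ⟨t2, BB, BB, BB, BB, ℓ 0⟩)

/-- force a natural number, fail on `0`, result in `Nat` -/
def gQ (n : Nat) (k : Nat → Nat) : Nat := Nat.rec (ℓ 0) (fun m _ => k m) n

/-- one node of the tree -/
def step (f : Fm) (rec : Nat → Nat → Nat → Nat → Nat → Nat → Nat → Nat → Nat → Nat)
    (l0 h0 l1 h1 l2 h2 l3 h3 s : Nat) : Nat :=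
      gQ (Nat.land s (ℓ 7) +ₙ ℓ 1) fun d => gQ ((s >>ₙ ℓ 3) +ₙ ℓ 1) fun s' =>
      Bool.rec
        (Bool.rec (ℓ 0) ((s' >>ₙ ℓ 16 *ₙ (d -ₙ ℓ 4)) +ₙ ℓ 1)
          (leaf f l0 h0 l1 h1 l2 h2 l3 h3
            (Bool.rec (ℓ 0) (Nat.land s' (ℓ 65535)) (Nat.ble (ℓ 5) d))
            (Bool.rec (ℓ 0) (Nat.land (s' >>ₙ ℓ 16) (ℓ 65535)) (Nat.ble (ℓ 6) d))
            (Bool.rec (ℓ 0) (Nat.land (s' >>ₙ ℓ 32) (ℓ 65535)) (Nat.ble (ℓ 7) d))))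
        (Bool.rec
          (Bool.rec
            (gQ ((l3 +ₙ h3 >>ₙ ℓ 1) +ₙ ℓ 1) fun m =>
              gQ (rec l0 h0 l1 h1 l2 h2 l3 m s') fun s'' => rec l0 h0 l1 h1 l2 h2 m h3 s'')
            (gQ ((l2 +ₙ h2 >>ₙ ℓ 1) +ₙ ℓ 1) fun m =>
              gQ (rec l0 h0 l1 h1 l2 m l3 h3 s') fun s'' => rec l0 h0 l1 h1 m h2 l3 h3 s'')
            (Nat.beq d (ℓ 2)))
          (Bool.rec
            (gQ ((l1 +ₙ h1 >>ₙ ℓ 1) +ₙ ℓ 1) fun m =>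
              gQ (rec l0 h0 l1 m l2 h2 l3 h3 s') fun s'' => rec l0 h0 m h1 l2 h2 l3 h3 s'')
            (gQ ((l0 +ₙ h0 >>ₙ ℓ 1) +ₙ ℓ 1) fun m =>
              gQ (rec l0 m l1 h1 l2 h2 l3 h3 s') fun s'' => rec m h0 l1 h1 l2 h2 l3 h3 s'')
            (Nat.beq d (ℓ 0)))
          (Nat.ble d (ℓ 1)))
        (Nat.ble d (ℓ 3))

/-- run the tree coded in `s` (base 8 digits: `0..3` split, `4+j` leaf with `j` parameters of 16 bits);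
the result is `0` for failure, else the rest of the code plus one -/
def go (f : Fm) (fuel : Nat) : Nat → Nat → Nat → Nat → Nat → Nat → Nat → Nat → Nat → Nat :=
  Nat.rec (motive := fun _ => Nat → Nat → Nat → Nat → Nat → Nat → Nat → Nat → Nat → Nat)
    (fun _ _ _ _ _ _ _ _ _ => ℓ 0) (fun _ rec => step f rec) fuel

/-- the certificate check -/
def chk (f : Fm) (B : Bx) (s : Nat) : Bool :=
  Nat.ble (ℓ 1) (go f (ℓ 200) B.l0 B.h0 B.l1 B.h1 B.l2 B.h2 B.l3 B.h3 s)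

end Crest.Agent.Lib.Box
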