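import Mathlib

/-!
# Box certifier: the real-number inequalities behind affine arithmetic
-/

set_option autoImplicit false

namespace Crest.Agent.Lib.Box

theorem abs_mul_le' {u v a b : ℝ} (hu : |u| ≤ a) (hv : |v| ≤ b) : |u * v| ≤ a * b := by
  rw [abs_mul]; exact mul_le_mul hu hv (abs_nonneg _) ((abs_nonneg _).trans hu)

theorem abs_mul_eps {a e : ℝ} (he : |e| ≤ 1) : |a * e| ≤ |a| := by
  simpa using abs_mul_le' (le_refl |a|) he

theorem diag_le {a b e : ℝ} (he : |e| ≤ 1) : |a * e * (b * e) - a * b / 2| ≤ |a| * |b| / 2 := by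
  have h1 : |e * e - 1 / 2| ≤ 1 / 2 := by
    have := abs_le.1 he
    rw [abs_le]; constructor <;> nlinarith [mul_self_nonneg e]
  have h2 := abs_mul_le' (le_refl |a * b|) h1
  rw [abs_mul a b] at h2
  have : a * e * (b * e) - a * b / 2 = a * b * (e * e - 1 / 2) := by ring
  rw [this]; linarith

theorem range_core {c a0 a1 a2 a3 r e0 e1 e2 e3 X : ℝ} (h0 : |e0| ≤ 1) (h1 : |e1| ≤ 1)
    (h2 : |e2| ≤ 1) (h3 : |e3| ≤ 1) (hX : |X - (c + a0 * e0 + a1 * e1 + a2 * e2 + a3 * e3)| ≤ r) :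
    |X - c| ≤ |a0| + |a1| + |a2| + |a3| + r := by
  have u0 := abs_le.1 (abs_mul_eps (a := a0) h0)
  have u1 := abs_le.1 (abs_mul_eps (a := a1) h1)
  have u2 := abs_le.1 (abs_mul_eps (a := a2) h2)
  have u3 := abs_le.1 (abs_mul_eps (a := a3) h3)
  have := abs_le.1 hX
  rw [abs_le]; constructor <;> linarith [u0.1, u0.2, u1.1, u1.2, u2.1, u2.2, u3.1, u3.2, this.1, this.2]

theorem close_core {C A0 A1 A2 A3 R c a0 a1 a2 a3 r e0 e1 e2 e3 X : ℝ} (h0 : |e0| ≤ 1) (h1 : |e1| ≤ 1)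
    (h2 : |e2| ≤ 1) (h3 : |e3| ≤ 1) (hX : |X - (C + A0 * e0 + A1 * e1 + A2 * e2 + A3 * e3)| ≤ R)
    (hc : |C - c| ≤ 1) (k0 : |A0 - a0| ≤ 1) (k1 : |A1 - a1| ≤ 1) (k2 : |A2 - a2| ≤ 1)
    (k3 : |A3 - a3| ≤ 1) (hr : R + 5 ≤ r) :
    |X - (c + a0 * e0 + a1 * e1 + a2 * e2 + a3 * e3)| ≤ r := by
  have u0 := abs_le.1 (abs_mul_le' k0 h0)
  have u1 := abs_le.1 (abs_mul_le' k1 h1)
  have u2 := abs_le.1 (abs_mul_le' k2 h2)
  have u3 := abs_le.1 (abs_mul_le' k3 h3)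
  have u := abs_le.1 hX
  have v := abs_le.1 hc
  rw [abs_le]
  constructor <;> nlinarith [u0.1, u0.2, u1.1, u1.2, u2.1, u2.2, u3.1, u3.2, u.1, u.2, v.1, v.2]

theorem mul_core {c d a0 a1 a2 a3 b0 b1 b2 b3 r s e0 e1 e2 e3 X Y : ℝ} (h0 : |e0| ≤ 1)
    (h1 : |e1| ≤ 1) (h2 : |e2| ≤ 1) (h3 : |e3| ≤ 1)
    (hX : |X - (c + a0 * e0 + a1 * e1 + a2 * e2 + a3 * e3)| ≤ r)
    (hY : |Y - (d + b0 * e0 + b1 * e1 + b2 * e2 + b3 * e3)| ≤ s) :
    |X * Y - (c * d + (a0 * b0 + a1 * b1 + a2 * b2 + a3 * b3) / 2 + (c * b0 + d * a0) * e0 +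
      (c * b1 + d * a1) * e1 + (c * b2 + d * a2) * e2 + (c * b3 + d * a3) * e3)| ≤
      |c| * s + |d| * r + (|a0| + |a1| + |a2| + |a3| + r) * (|b0| + |b1| + |b2| + |b3| + s) -
        (|a0| * |b0| + |a1| * |b1| + |a2| * |b2| + |a3| * |b3|) / 2 := by
  obtain ⟨er, rfl⟩ : ∃ er, X = c + a0 * e0 + a1 * e1 + a2 * e2 + a3 * e3 + er :=
    ⟨X - (c + a0 * e0 + a1 * e1 + a2 * e2 + a3 * e3), by ring⟩
  obtain ⟨es, rfl⟩ : ∃ es, Y = d + b0 * e0 + b1 * e1 + b2 * e2 + b3 * e3 + es :=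
    ⟨Y - (d + b0 * e0 + b1 * e1 + b2 * e2 + b3 * e3), by ring⟩
  rw [add_sub_cancel_left] at hX hY
  have u0 := abs_mul_eps (a := a0) h0
  have u1 := abs_mul_eps (a := a1) h1
  have u2 := abs_mul_eps (a := a2) h2
  have u3 := abs_mul_eps (a := a3) h3
  have v0 := abs_le.1 (abs_mul_eps (a := b0) h0)
  have v1 := abs_le.1 (abs_mul_eps (a := b1) h1)
  have v2 := abs_le.1 (abs_mul_eps (a := b2) h2)
  have v3 := abs_le.1 (abs_mul_eps (a := b3) h3)
  have vs := abs_le.1 hY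
  have w0 : |b1 * e1 + b2 * e2 + b3 * e3 + es| ≤ |b1| + |b2| + |b3| + s := by
    rw [abs_le]; constructor <;> linarith [v1.1, v1.2, v2.1, v2.2, v3.1, v3.2, vs.1, vs.2]
  have w1 : |b0 * e0 + b2 * e2 + b3 * e3 + es| ≤ |b0| + |b2| + |b3| + s := by
    rw [abs_le]; constructor <;> linarith [v0.1, v0.2, v2.1, v2.2, v3.1, v3.2, vs.1, vs.2]
  have w2 : |b0 * e0 + b1 * e1 + b3 * e3 + es| ≤ |b0| + |b1| + |b3| + s := by
    rw [abs_le]; constructor <;> linarith [v1.1, v1.2, v0.1, v0.2, v3.1, v3.2, vs.1, vs.2]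
  have w3 : |b0 * e0 + b1 * e1 + b2 * e2 + es| ≤ |b0| + |b1| + |b2| + s := by
    rw [abs_le]; constructor <;> linarith [v1.1, v1.2, v2.1, v2.2, v0.1, v0.2, vs.1, vs.2]
  have w4 : |b0 * e0 + b1 * e1 + b2 * e2 + b3 * e3 + es| ≤ |b0| + |b1| + |b2| + |b3| + s := by
    rw [abs_le]
    constructor <;> linarith [v0.1, v0.2, v1.1, v1.2, v2.1, v2.2, v3.1, v3.2, vs.1, vs.2]
  have t0 := abs_le.1 (abs_mul_le' u0 w0)
  have t1 := abs_le.1 (abs_mul_le' u1 w1)
  have t2 := abs_le.1 (abs_mul_le' u2 w2)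
  have t3 := abs_le.1 (abs_mul_le' u3 w3)
  have t4 := abs_le.1 (abs_mul_le' hX w4)
  have d0 := abs_le.1 (diag_le (a := a0) (b := b0) h0)
  have d1 := abs_le.1 (diag_le (a := a1) (b := b1) h1)
  have d2 := abs_le.1 (diag_le (a := a2) (b := b2) h2)
  have d3 := abs_le.1 (diag_le (a := a3) (b := b3) h3)
  have c1 := abs_le.1 (abs_mul_le' (le_refl |c|) hY)
  have c2 := abs_le.1 (abs_mul_le' (le_refl |d|) hX)
  rw [abs_le]
  constructor
  · linarith [t0.1, t1.1, t2.1, t3.1, t4.1, d0.1, d1.1, d2.1, d3.1, c1.1, c2.1]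
  · linarith [t0.2, t1.2, t2.2, t3.2, t4.2, d0.2, d1.2, d2.2, d3.2, c1.2, c2.2]

theorem sq_core {c a0 a1 a2 a3 r R e0 e1 e2 e3 X : ℝ}
    (hX : |X - (c + a0 * e0 + a1 * e1 + a2 * e2 + a3 * e3)| ≤ r) (hR : |X - c| ≤ R) :
    |X ^ 2 - (c * c + R * R / 2 + 2 * c * a0 * e0 + 2 * c * a1 * e1 + 2 * c * a2 * e2 +
      2 * c * a3 * e3)| ≤ 2 * |c| * r + R * R / 2 := by
  have c1 := abs_le.1 (abs_mul_le' (le_refl |c|) hX)
  have c2 := abs_le.1 (abs_mul_le' hR hR)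
  have c3 := mul_self_nonneg (X - c)
  rw [abs_le]
  constructor <;> linarith [c1.1, c1.2, c2.2]

theorem lin_core {K c a0 a1 a2 a3 r e0 e1 e2 e3 X Y lo hi : ℝ}
    (hX : |X - (c + a0 * e0 + a1 * e1 + a2 * e2 + a3 * e3)| ≤ r) (hl : lo ≤ Y - K * X)
    (hh : Y - K * X ≤ hi) :
    |Y - (K * c + (lo + hi) / 2 + K * a0 * e0 + K * a1 * e1 + K * a2 * e2 + K * a3 * e3)| ≤
      |K| * r + (hi - lo) / 2 := by
  have c1 := abs_le.1 (abs_mul_le' (le_refl |K|) hX)
  rw [abs_le]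
  constructor <;> linarith [c1.1, c1.2]

/-- a concave parabola is at least the minimum of its end values -/
theorem conc_core {k Y l h m : ℝ} (hk : 0 ≤ k) (h1 : l ≤ Y) (h2 : Y ≤ h)
    (hl : m ≤ l - k * (l * l)) (hh : m ≤ h - k * (h * h)) : m ≤ Y - k * (Y * Y) := by
  by_cases hc : k * (Y + l) ≤ 1
  · nlinarith [mul_nonneg (sub_nonneg.2 h1) (sub_nonneg.2 hc)]
  · have : 1 ≤ k * (Y + h) := by
      have := mul_le_mul_of_nonneg_left (show Y + l ≤ Y + h by linarith) hk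
      linarith [not_le.1 hc]
    nlinarith [mul_nonneg (sub_nonneg.2 h2) (sub_nonneg.2 this)]

theorem sqrt_lo {K x lo hi sl su m : ℝ} (hK : 0 ≤ K) (hlo : 0 ≤ lo) (h1 : lo ≤ 4294967296 * x)
    (h2 : 4294967296 * x ≤ hi) (hsl : sl * sl ≤ lo * 4294967296) (hsu : su * su ≤ hi * 4294967296)
    (m1 : m ≤ sl - K * lo / 4294967296) (m2 : m ≤ su - K * hi / 4294967296) :
    m ≤ 4294967296 * √x - K / 4294967296 * (4294967296 * x) := by
  have hx : 0 ≤ x := by linarith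
  have hhi : 0 ≤ hi := by linarith
  have e : √x * √x = x := Real.mul_self_sqrt hx
  have el : √(lo * 4294967296) * √(lo * 4294967296) = lo * 4294967296 :=
    Real.mul_self_sqrt (by positivity)
  have eh : √(hi * 4294967296) * √(hi * 4294967296) = hi * 4294967296 :=
    Real.mul_self_sqrt (by positivity)
  have hY : 4294967296 * √x * (4294967296 * √x) = 4294967296 * (4294967296 * x) := by
    linear_combination (4294967296 * 4294967296) * e
  have a1 : √(lo * 4294967296) ≤ 4294967296 * √x := by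
    apply abs_le_of_sq_le_sq' _ (by positivity) |>.2
    nlinarith
  have a2 : 4294967296 * √x ≤ √(hi * 4294967296) := by
    apply Real.le_sqrt_of_sq_le; nlinarith
  have b1 : sl ≤ √(lo * 4294967296) := Real.le_sqrt_of_sq_le (by nlinarith)
  have b2 : su ≤ √(hi * 4294967296) := Real.le_sqrt_of_sq_le (by nlinarith)
  have := conc_core (k := K / 4294967296 / 4294967296) (m := m) (by positivity) a1 a2
    (by rw [el]; linarith) (by rw [eh]; linarith)
  rw [hY] at this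
  linarith

theorem sqrt_hi {K x q : ℝ} (hK : 0 < K) (hx : 0 ≤ x) (hq : 4611686018427387904 ≤ K * q) :
    4294967296 * √x - K / 4294967296 * (4294967296 * x) ≤ q := by
  have e : √x * √x = x := Real.mul_self_sqrt hx
  have : K * (4294967296 * √x - K / 4294967296 * (4294967296 * x)) ≤ K * q := by
    have e2 : K * K * x = K * K * (√x * √x) := by rw [e]
    linarith [mul_self_nonneg (K * √x - 2147483648)]
  exact le_of_mul_le_mul_left this hK

theorem sqrt_top {x hi su : ℝ} (h2 : 4294967296 * x ≤ hi) (hsu0 : 0 ≤ su)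
    (hsu : hi * 4294967296 ≤ su * su) : 4294967296 * √x ≤ su := by
  have : √x ≤ su / 4294967296 := by
    apply Real.sqrt_le_iff.2 ⟨by positivity, _⟩
    rw [div_pow, le_div_iff₀ (by norm_num)]
    nlinarith
  linarith

theorem inv_lo {K x s : ℝ} (hK : 0 ≤ K) (hx : 0 < x) (hs : s * s ≤ K * 4294967296) :
    s + s ≤ 4294967296 * x⁻¹ - -(K / 4294967296) * (4294967296 * x) := by
  have e : x * x⁻¹ = 1 := mul_inv_cancel₀ hx.ne'
  have hi : 0 < x⁻¹ := inv_pos.2 hx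
  have h1 : (s + s) ^ 2 ≤ (4294967296 * x⁻¹ + K * x) ^ 2 := by
    nlinarith [mul_self_nonneg (4294967296 * x⁻¹ - K * x)]
  have := (abs_le_of_sq_le_sq' h1 (by positivity)).2
  linarith

theorem inv_hi {K x lo hi m : ℝ} (hlo : 0 < lo) (h1 : lo ≤ 4294967296 * x)
    (h2 : 4294967296 * x ≤ hi) (m1 : 18446744073709551616 / lo + K * lo / 4294967296 ≤ m)
    (m2 : 18446744073709551616 / hi + K * hi / 4294967296 ≤ m) :
    4294967296 * x⁻¹ - -(K / 4294967296) * (4294967296 * x) ≤ m := by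
  obtain ⟨X, hX⟩ : ∃ X, X = 4294967296 * x := ⟨_, rfl⟩
  have hx : x = X / 4294967296 := by rw [hX]; ring
  rw [← hX] at h1 h2 ⊢
  have hX0 : 0 < X := by linarith
  have hh0 : 0 < hi := by linarith
  have e : 4294967296 * x⁻¹ = 18446744073709551616 / X := by rw [hx]; field_simp; norm_num
  rw [e]
  by_cases hc : K / 4294967296 ≤ 18446744073709551616 / (X * lo)
  · have : 18446744073709551616 / lo - 18446744073709551616 / X =
        (X - lo) * (18446744073709551616 / (X * lo)) := by field_simp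
    nlinarith [mul_nonneg (sub_nonneg.2 h1) (sub_nonneg.2 hc)]
  · have h3 : 18446744073709551616 / (X * hi) ≤ 18446744073709551616 / (X * lo) := by
      apply div_le_div_of_nonneg_left (by norm_num) (by positivity)
      exact mul_le_mul_of_nonneg_left (by linarith) hX0.le
    have h4 : 18446744073709551616 / (X * hi) ≤ K / 4294967296 := by linarith [not_le.1 hc]
    have : 18446744073709551616 / X - 18446744073709551616 / hi =
        (hi - X) * (18446744073709551616 / (X * hi)) := by field_simp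
    nlinarith [mul_nonneg (sub_nonneg.2 h2) (sub_nonneg.2 h4)]

theorem pp_lo {K x : ℝ} (hK : 0 ≤ K) (hK1 : K ≤ 4294967296) :
    0 ≤ 4294967296 * max x 0 - K / 4294967296 * (4294967296 * x) := by
  rcases le_total x 0 with h | h
  · rw [max_eq_right h]; nlinarith
  · rw [max_eq_left h]; nlinarith

theorem pp_hi {K x l h m : ℝ} (hK : 0 ≤ K) (hK1 : K ≤ 4294967296) (h1 : -l ≤ 4294967296 * x)
    (h2 : 4294967296 * x ≤ h) (m1 : K * l ≤ 4294967296 * m) (m2 : (4294967296 - K) * h ≤ 4294967296 * m) :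
    4294967296 * max x 0 - K / 4294967296 * (4294967296 * x) ≤ m := by
  rcases le_total x 0 with hx | hx
  · rw [max_eq_right hx]; nlinarith [mul_le_mul_of_nonneg_left h1 hK]
  · rw [max_eq_left hx]; nlinarith [mul_le_mul_of_nonneg_left h2 (sub_nonneg.2 hK1)]

end Crest.Agent.Lib.Box
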