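import Crest.Agent.Lib.Box.Defs
import Crest.Agent.Lib.Box.Real

/-!
# Box certifier: soundness of the operations on affine forms
-/

set_option autoImplicit false

noncomputable section

namespace Crest.Agent.Lib.Box

/-- values of the noise symbols -/
structure Eps where
  e0 : ℝ
  e1 : ℝ
  e2 : ℝ
  e3 : ℝ
  h0 : |e0| ≤ 1
  h1 : |e1| ≤ 1
  h2 : |e2| ≤ 1
  h3 : |e3| ≤ 1

local notation "Br" => (1152921504606846976 : ℝ)

/-- `x` lies in the affine form -/
def Mem (ε : Eps) (x : ℝ) (c a0 a1 a2 a3 r : ℕ) : Prop :=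
  |4294967296 * x - ((c - Br) + (a0 - Br) * ε.e0 + (a1 - Br) * ε.e1 + (a2 - Br) * ε.e2 +
    (a3 - Br) * ε.e3)| ≤ r

/-- `x` lies in the affine form -/
def AF.mem (A : AF) (ε : Eps) (x : ℝ) : Prop := Mem ε x A.c A.a0 A.a1 A.a2 A.a3 A.r

theorem fQ_spec {n : ℕ} {k : ℕ → Bool} (h : fQ n k = true) : ∃ m, n = m + 1 ∧ k m = true := by
  cases n with
  | zero => exact absurd h (by simp [fQ])
  | succ m => exact ⟨m, rfl, h⟩

theorem fQ1 {n : ℕ} {k : ℕ → Bool} (h : fQ (Nat.add n (nat_lit 1)) k = true) : k n = true := h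

theorem fQ2 {n : ℕ} {k : ℕ → Bool} (h : fQ (Nat.add n (nat_lit 1)) k = true) :
    ∃ m, n = m ∧ k m = true := ⟨n, rfl, h⟩

theorem fA_spec {c a0 a1 a2 a3 r : ℕ} {k : AF → Bool} (h : fA c a0 a1 a2 a3 r k = true) :
    ∃ c' a0' a1' a2' a3' r', c = c' + 1 ∧ a0 = a0' + 1 ∧ a1 = a1' + 1 ∧ a2 = a2' + 1 ∧
      a3 = a3' + 1 ∧ r = r' + 1 ∧ k ⟨c', a0', a1', a2', a3', r'⟩ = true := by
  obtain ⟨c', hc, h⟩ := fQ_spec (n := c) h
  obtain ⟨a0', h0, h⟩ := fQ_spec (n := a0) h
  obtain ⟨a1', h1, h⟩ := fQ_spec (n := a1) h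
  obtain ⟨a2', h2, h⟩ := fQ_spec (n := a2) h
  obtain ⟨a3', h3, h⟩ := fQ_spec (n := a3) h
  obtain ⟨r', hr, h⟩ := fQ_spec (n := r) h
  exact ⟨_, _, _, _, _, _, hc, h0, h1, h2, h3, hr, h⟩

theorem brec_spec {a b : Bool} (h : (Bool.rec false a b : Bool) = true) : b = true ∧ a = true := by
  cases b
  · exact absurd h (by simp)
  · exact ⟨rfl, h⟩

theorem brec_cases {a b c : Bool} (h : (Bool.rec a b c : Bool) = true) :
    (c = false ∧ a = true) ∨ (c = true ∧ b = true) := by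
  cases c
  · exact Or.inl ⟨rfl, h⟩
  · exact Or.inr ⟨rfl, h⟩

theorem ble_cast {a b : ℕ} (h : Nat.ble a b = true) : (a : ℝ) ≤ b := by
  exact_mod_cast Nat.le_of_ble_eq_true h

theorem nble_cast {a b : ℕ} (h : Nat.ble a b = false) : (b : ℝ) < a := by
  have : ¬ a ≤ b := fun h' => by simp [Nat.ble_eq_true_of_le h'] at h
  exact_mod_cast not_le.1 this

theorem succ_cast {n m : ℕ} (h : n = m + 1) : (m : ℝ) = n - 1 := by
  rw [h]; push_cast; ring

theorem sub_succ {P N m : ℕ} (h : Nat.sub P N = m + 1) : (m : ℝ) = P - N - 1 := by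
  have h' : P - N = m + 1 := h
  have : P = N + m + 1 := by omega
  rw [this]; push_cast; ring

theorem sub_ge (P N : ℕ) : (P : ℝ) - N ≤ (Nat.sub P N : ℕ) := by
  have : P ≤ Nat.sub P N + N := by have : Nat.sub P N = P - N := rfl; omega
  have : (P : ℝ) ≤ (Nat.sub P N : ℕ) + N := by exact_mod_cast this
  linarith

theorem sub_of_le {P N : ℕ} (h : (N : ℝ) ≤ P) : ((Nat.sub P N : ℕ) : ℝ) = P - N :=
  Nat.cast_sub (by exact_mod_cast h)

theorem div_bd (n d : ℕ) (hd : 0 < d) :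
    ((Nat.div n d : ℕ) : ℝ) ≤ n / d ∧ (n : ℝ) / d < (Nat.div n d : ℕ) + 1 := by
  refine ⟨Nat.cast_div_le, ?_⟩
  have hd' : (0 : ℝ) < d := by exact_mod_cast hd
  rw [div_lt_iff₀ hd']
  have : n < (n / d + 1) * d := by
    have := Nat.lt_div_mul_add (a := n) hd
    nlinarith
  exact_mod_cast this

theorem shr_bd (n s : ℕ) :
    ((Nat.shiftRight n s : ℕ) : ℝ) ≤ n / 2 ^ s ∧ (n : ℝ) / 2 ^ s < (Nat.shiftRight n s : ℕ) + 1 := by
  have : Nat.shiftRight n s = Nat.div n (2 ^ s) := Nat.shiftRight_eq_div_pow n s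
  rw [this]
  have := div_bd n (2 ^ s) (by positivity)
  push_cast at this
  exact this

theorem shr_one (n : ℕ) : (n : ℝ) ≤ 2 * (Nat.shiftRight n 1 : ℕ) + 1 := by
  have e : Nat.shiftRight n 1 = n / 2 := Nat.shiftRight_eq_div_pow n 1
  have : n ≤ 2 * Nat.shiftRight n 1 + 1 := by omega
  exact_mod_cast this

theorem shl_cast (n s : ℕ) : ((Nat.shiftLeft n s : ℕ) : ℝ) = n * 2 ^ s := by
  have : Nat.shiftLeft n s = n * 2 ^ s := Nat.shiftLeft_eq n s
  rw [this]; push_cast; rfl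

theorem shsub {P N s m : ℕ} (h : Nat.shiftRight (Nat.sub P N) s = m + 1) :
    |((P : ℝ) - N) / 2 ^ s - 1 - m| ≤ 1 := by
  have h1 := shr_bd (Nat.sub P N) s
  rw [h] at h1
  have hle : N ≤ P := by
    by_contra hc
    have : Nat.sub P N = 0 := Nat.sub_eq_zero_of_le (not_le.1 hc).le
    rw [this] at h
    have : Nat.shiftRight 0 s = 0 := Nat.zero_shiftRight s
    omega
  rw [sub_of_le (by exact_mod_cast hle)] at h1
  push_cast at h1
  rw [abs_le]; constructor <;> linarith [h1.1, h1.2]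

theorem ab_cast (x : ℕ) : ((Nat.add (Nat.sub x (nat_lit 1152921504606846976))
    (Nat.sub (nat_lit 1152921504606846976) x) : ℕ) : ℝ) = |(x : ℝ) - Br| := by
  show (((x - 1152921504606846976) + (1152921504606846976 - x) : ℕ) : ℝ) = _
  rcases le_total x 1152921504606846976 with h | h
  · have h' : (x : ℝ) ≤ Br := by exact_mod_cast h
    rw [Nat.sub_eq_zero_of_le h, abs_of_nonpos (by linarith), zero_add, Nat.cast_sub h]
    push_cast; ring
  · have h' : Br ≤ (x : ℝ) := by exact_mod_cast h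
    rw [Nat.sub_eq_zero_of_le h, abs_of_nonneg (by linarith), add_zero, Nat.cast_sub h]
    push_cast; ring

theorem add_cast (a b : ℕ) : ((Nat.add a b : ℕ) : ℝ) = a + b := Nat.cast_add a b
theorem mul_cast (a b : ℕ) : ((Nat.mul a b : ℕ) : ℝ) = a * b := Nat.cast_mul a b

theorem rad_cast (a0 a1 a2 a3 r : ℕ) : ((rad a0 a1 a2 a3 r : ℕ) : ℝ) =
    |(a0 : ℝ) - Br| + |(a1 : ℝ) - Br| + |(a2 : ℝ) - Br| + |(a3 : ℝ) - Br| + r := by
  unfold rad
  rw [add_cast, add_cast, add_cast, add_cast, ab_cast, ab_cast, ab_cast, ab_cast]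

theorem max_ge1 (p q : ℕ) : (p : ℝ) ≤ (Nat.add p (Nat.sub q p) : ℕ) := by
  have : p ≤ p + (q - p) := by omega
  exact_mod_cast this
theorem max_ge2 (p q : ℕ) : (q : ℝ) ≤ (Nat.add p (Nat.sub q p) : ℕ) := by
  have : q ≤ p + (q - p) := by omega
  exact_mod_cast this
theorem min_le1 (p q : ℕ) : ((Nat.sub p (Nat.sub p q) : ℕ) : ℝ) ≤ p := by
  have : p - (p - q) ≤ p := by omega
  exact_mod_cast this
theorem min_le2 (p q : ℕ) : ((Nat.sub p (Nat.sub p q) : ℕ) : ℝ) ≤ q := by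
  have : p - (p - q) ≤ q := by omega
  exact_mod_cast this

theorem ab_cast2 (x : ℕ) : ((Nat.sub x 1152921504606846976 : ℕ) : ℝ) +
    ((Nat.sub 1152921504606846976 x : ℕ) : ℝ) = |(x : ℝ) - Br| := by
  rw [← add_cast]; exact ab_cast x

local macro "rc" " at " h:ident : tactic =>
  `(tactic| simp only [ab_cast2, add_cast, mul_cast, shl_cast, Nat.cast_ofNat, Nat.cast_one] at $h:ident)

theorem Mem.range {ε : Eps} {x : ℝ} {c a0 a1 a2 a3 r : ℕ} (h : Mem ε x c a0 a1 a2 a3 r) :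
    |4294967296 * x - (c - Br)| ≤ (rad a0 a1 a2 a3 r : ℕ) := by
  rw [rad_cast]; exact range_core ε.h0 ε.h1 ε.h2 ε.h3 h

variable {ε : Eps} {x y : ℝ} {k : AF → Bool}

theorem addA_sound {A B : AF} (hA : A.mem ε x) (hB : B.mem ε y) (h : addA A B k = true) :
    ∃ C : AF, C.mem ε (x + y) ∧ k C = true := by
  obtain ⟨c, a0, a1, a2, a3, r⟩ := A
  obtain ⟨d, b0, b1, b2, b3, s⟩ := B
  dsimp only [addA] at h
  obtain ⟨c', a0', a1', a2', a3', r', hc, h0, h1, h2, h3, hr, hk⟩ := fA_spec h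
  refine ⟨_, ?_, hk⟩
  replace hc := sub_succ hc; replace h0 := sub_succ h0; replace h1 := sub_succ h1
  replace h2 := sub_succ h2; replace h3 := sub_succ h3; replace hr := succ_cast hr
  rc at hc; rc at h0; rc at h1; rc at h2; rc at h3; rc at hr
  have u := abs_le.1 hA
  have v := abs_le.1 hB
  show Mem _ _ _ _ _ _ _ _
  unfold Mem
  dsimp only at u v ⊢
  rw [hc, h0, h1, h2, h3, hr, abs_le]
  constructor <;> linarith [u.1, u.2, v.1, v.2]

theorem subA_sound {A B : AF} (hA : A.mem ε x) (hB : B.mem ε y) (h : subA A B k = true) :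
    ∃ C : AF, C.mem ε (x - y) ∧ k C = true := by
  obtain ⟨c, a0, a1, a2, a3, r⟩ := A
  obtain ⟨d, b0, b1, b2, b3, s⟩ := B
  dsimp only [subA] at h
  obtain ⟨c', a0', a1', a2', a3', r', hc, h0, h1, h2, h3, hr, hk⟩ := fA_spec h
  refine ⟨_, ?_, hk⟩
  replace hc := sub_succ hc; replace h0 := sub_succ h0; replace h1 := sub_succ h1
  replace h2 := sub_succ h2; replace h3 := sub_succ h3; replace hr := succ_cast hr
  rc at hc; rc at h0; rc at h1; rc at h2; rc at h3; rc at hr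
  have u := abs_le.1 hA
  have v := abs_le.1 hB
  show Mem _ _ _ _ _ _ _ _
  unfold Mem
  dsimp only at u v ⊢
  rw [hc, h0, h1, h2, h3, hr, abs_le]
  constructor <;> linarith [u.1, u.2, v.1, v.2]

theorem negA_sound {A : AF} (hA : A.mem ε x) (h : negA A k = true) :
    ∃ C : AF, C.mem ε (-x) ∧ k C = true := by
  obtain ⟨c, a0, a1, a2, a3, r⟩ := A
  dsimp only [negA] at h
  obtain ⟨c', a0', a1', a2', a3', r', hc, h0, h1, h2, h3, hr, hk⟩ := fA_spec h
  refine ⟨_, ?_, hk⟩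
  replace hc := sub_succ hc; replace h0 := sub_succ h0; replace h1 := sub_succ h1
  replace h2 := sub_succ h2; replace h3 := sub_succ h3; replace hr := succ_cast hr
  rc at hc; rc at h0; rc at h1; rc at h2; rc at h3; rc at hr
  have u := abs_le.1 hA
  show Mem _ _ _ _ _ _ _ _
  unfold Mem
  dsimp only at u ⊢
  rw [hc, h0, h1, h2, h3, hr, abs_le]
  constructor <;> linarith [u.1, u.2]

theorem cstA_sound {n d : ℕ} (h : cstA n d k = true) :
    ∃ C : AF, C.mem ε ((n : ℝ) / ((d : ℝ) + 1)) ∧ k C = true := by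
  dsimp only [cstA] at h
  obtain ⟨c, hc, hk⟩ := fQ_spec h
  refine ⟨_, ?_, hk⟩
  replace hc := succ_cast hc
  have hd := div_bd (Nat.shiftLeft n 32) (Nat.add d 1) (Nat.succ_pos d)
  rc at hc; rc at hd
  show Mem _ _ _ _ _ _ _ _
  unfold Mem
  dsimp only
  have e : 4294967296 * ((n : ℝ) / ((d : ℝ) + 1)) = n * 2 ^ 32 / (d + 1) := by ring
  rw [hc, e, abs_le]
  push_cast
  constructor <;> linarith [hd.1, hd.2]

theorem natA_sound {n : ℕ} (h : fQ (Nat.add (Nat.shiftLeft n (nat_lit 32)) (nat_lit 1152921504606846977))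
      (fun c => k ⟨c, nat_lit 1152921504606846976, nat_lit 1152921504606846976,
        nat_lit 1152921504606846976, nat_lit 1152921504606846976, nat_lit 0⟩) = true) :
    ∃ C : AF, C.mem ε (n : ℝ) ∧ k C = true := by
  obtain ⟨c, hc, hk⟩ := fQ_spec h
  refine ⟨_, ?_, hk⟩
  replace hc := succ_cast hc
  rc at hc
  show Mem _ _ _ _ _ _ _ _
  unfold Mem
  dsimp only
  rw [hc, abs_le]
  push_cast
  constructor <;> linarith

theorem nmulA_sound {A : AF} {n : ℕ} (hA : A.mem ε x) (h : nmulA n A k = true) :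
    ∃ C : AF, C.mem ε (n * x) ∧ k C = true := by
  obtain ⟨c, a0, a1, a2, a3, r⟩ := A
  dsimp only [nmulA] at h
  replace h := fQ1 h
  obtain ⟨c', a0', a1', a2', a3', r', hc, h0, h1, h2, h3, hr, hk⟩ := fA_spec h
  refine ⟨_, ?_, hk⟩
  replace hc := sub_succ hc; replace h0 := sub_succ h0; replace h1 := sub_succ h1
  replace h2 := sub_succ h2; replace h3 := sub_succ h3; replace hr := succ_cast hr
  rc at hc; rc at h0; rc at h1; rc at h2; rc at h3; rc at hr
  have u := abs_le.1 (abs_mul_le' (le_of_eq (abs_of_nonneg (Nat.cast_nonneg (α := ℝ) n))) hA)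
  show Mem _ _ _ _ _ _ _ _
  unfold Mem
  dsimp only at u ⊢
  rw [hc, h0, h1, h2, h3, hr, abs_le]
  constructor <;> linarith [u.1, u.2]

theorem ndiv_aux {n a m : ℕ} (h : Nat.div (Nat.add a (Nat.add (Nat.mul n 1152921504606846977) 1))
    (Nat.add n 1) = m + 1) : |((a : ℝ) - Br) / (n + 1) - (m - Br)| ≤ 1 := by
  have hd := div_bd (Nat.add a (Nat.add (Nat.mul n 1152921504606846977) 1)) (Nat.add n 1)
    (Nat.succ_pos n)
  rw [h] at hd
  rc at hd
  push_cast at hd
  have hn : (0 : ℝ) < n + 1 := by positivity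
  have e : ((a : ℝ) + (n * 1152921504606846977 + 1)) / (n + 1) = (a - Br) / (n + 1) + (Br + 1) := by
    field_simp; ring
  rw [e] at hd
  rw [abs_le]
  constructor <;> linarith [hd.1, hd.2]

theorem ndivA_sound {A : AF} {n : ℕ} (hA : A.mem ε x) (h : ndivA n A k = true) :
    ∃ C : AF, C.mem ε (x / (n + 1)) ∧ k C = true := by
  obtain ⟨c, a0, a1, a2, a3, r⟩ := A
  dsimp only [ndivA] at h
  replace h := fQ1 (n := Nat.add n 1) h
  replace h := fQ1 (n := Nat.add (Nat.mul n 1152921504606846977) 1) h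
  obtain ⟨c', a0', a1', a2', a3', r', hc, h0, h1, h2, h3, hr, hk⟩ := fA_spec h
  refine ⟨_, ?_, hk⟩
  replace hr := succ_cast hr
  have hd := div_bd r (Nat.add n 1) (Nat.succ_pos n)
  rc at hr; rc at hd
  have hn : (0 : ℝ) < n + 1 := by positivity
  have u := abs_mul_le' (le_of_eq (abs_of_nonneg (inv_pos.2 hn).le)) hA
  show Mem _ _ _ _ _ _ _ _
  unfold Mem
  dsimp only at u ⊢
  refine close_core ε.h0 ε.h1 ε.h2 ε.h3 (R := r / (n + 1)) ?_ (ndiv_aux hc) (ndiv_aux h0)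
    (ndiv_aux h1) (ndiv_aux h2) (ndiv_aux h3) (by linarith [hd.2])
  convert u using 2 <;> ring

theorem linP_sound {K c a0 a1 a2 a3 r lo hi : ℕ} (hA : Mem ε x c a0 a1 a2 a3 r)
    (hl : (lo : ℝ) - Br ≤ 4294967296 * y - K / 4294967296 * (4294967296 * x))
    (hh : 4294967296 * y - K / 4294967296 * (4294967296 * x) ≤ (hi : ℝ) - Br)
    (h : linP K c a0 a1 a2 a3 r lo hi k = true) : ∃ C : AF, C.mem ε y ∧ k C = true := by
  dsimp only [linP] at h
  replace h := fQ1 h
  obtain ⟨c', a0', a1', a2', a3', r', hc, h0, h1, h2, h3, hr, hk⟩ := fA_spec h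
  refine ⟨_, ?_, hk⟩
  replace hc := shsub hc; replace h0 := shsub h0; replace h1 := shsub h1
  replace h2 := shsub h2; replace h3 := shsub h3; replace hr := succ_cast hr
  have hd := (shr_bd (Nat.add (Nat.mul K r) (Nat.shiftLeft (Nat.sub hi lo) 31)) 32).2
  have hs := sub_ge hi lo
  rc at hc; rc at h0; rc at h1; rc at h2; rc at h3; rc at hr
  rc at hd
  have u := lin_core hA hl hh
  rw [abs_of_nonneg (show (0 : ℝ) ≤ K / 4294967296 by positivity)] at u
  show Mem _ _ _ _ _ _ _ _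
  unfold Mem
  dsimp only
  refine close_core ε.h0 ε.h1 ε.h2 ε.h3 u ?_ ?_ ?_ ?_ ?_ ?_
  · convert hc using 2; ring
  · convert h0 using 2; ring
  · convert h1 using 2; ring
  · convert h2 using 2; ring
  · convert h3 using 2; ring
  · linarith

theorem linN_sound {K c a0 a1 a2 a3 r lo hi : ℕ} (hA : Mem ε x c a0 a1 a2 a3 r)
    (hl : (lo : ℝ) - Br ≤ 4294967296 * y - -(K / 4294967296) * (4294967296 * x))
    (hh : 4294967296 * y - -(K / 4294967296) * (4294967296 * x) ≤ (hi : ℝ) - Br)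
    (h : linN K c a0 a1 a2 a3 r lo hi k = true) : ∃ C : AF, C.mem ε y ∧ k C = true := by
  dsimp only [linN] at h
  obtain ⟨T, hT, h⟩ := fQ_spec h
  replace hT := succ_cast hT
  rc at hT
  obtain ⟨c', a0', a1', a2', a3', r', hc, h0, h1, h2, h3, hr, hk⟩ := fA_spec h
  refine ⟨_, ?_, hk⟩
  replace hc := shsub hc; replace h0 := shsub h0; replace h1 := shsub h1
  replace h2 := shsub h2; replace h3 := shsub h3; replace hr := succ_cast hr
  have hd := (shr_bd (Nat.add (Nat.mul K r) (Nat.shiftLeft (Nat.sub hi lo) 31)) 32).2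
  have hs := sub_ge hi lo
  rc at hc; rc at h0; rc at h1; rc at h2; rc at h3; rc at hr
  rc at hd
  have u := lin_core hA hl hh
  rw [abs_neg, abs_of_nonneg (show (0 : ℝ) ≤ K / 4294967296 by positivity)] at u
  rw [hT] at h0 h1 h2 h3
  show Mem _ _ _ _ _ _ _ _
  unfold Mem
  dsimp only
  refine close_core ε.h0 ε.h1 ε.h2 ε.h3 u ?_ ?_ ?_ ?_ ?_ ?_
  · convert hc using 2; ring
  · convert h0 using 2; ring
  · convert h1 using 2; ring
  · convert h2 using 2; ring
  · convert h3 using 2; ring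
  · linarith

theorem scale_mul {X Y C A0 A1 A2 A3 R e0 e1 e2 e3 z : ℝ} (hz : X * Y = 4294967296 * (4294967296 * z))
    (h : |X * Y - (C + A0 * e0 + A1 * e1 + A2 * e2 + A3 * e3)| ≤ R) :
    |4294967296 * z - (C / 4294967296 + A0 / 4294967296 * e0 + A1 / 4294967296 * e1 +
      A2 / 4294967296 * e2 + A3 / 4294967296 * e3)| ≤ R / 4294967296 := by
  rw [hz] at h
  have := abs_le.1 h
  rw [abs_le]
  constructor <;> linarith [this.1, this.2]

theorem mulA_sound {A B : AF} (hA : A.mem ε x) (hB : B.mem ε y) (h : mulA A B k = true) :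
    ∃ C : AF, C.mem ε (x * y) ∧ k C = true := by
  obtain ⟨c, a0, a1, a2, a3, r⟩ := A
  obtain ⟨d, b0, b1, b2, b3, s⟩ := B
  dsimp only [mulA] at h
  replace h := fQ1 h; replace h := fQ1 h; replace h := fQ1 h; replace h := fQ1 h
  replace h := fQ1 h; replace h := fQ1 h; replace h := fQ1 h; replace h := fQ1 h
  replace h := fQ1 h
  obtain ⟨c', a0', a1', a2', a3', r', hc, h0, h1, h2, h3, hr, hk⟩ := fA_spec h
  refine ⟨_, ?_, hk⟩
  replace hc := shsub hc; replace h0 := shsub h0; replace h1 := shsub h1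
  replace h2 := shsub h2; replace h3 := shsub h3; replace hr := succ_cast hr
  rw [add_cast] at hr
  generalize hq : Nat.sub _ _ = q at hr
  have hd := (shr_bd q 33).2
  have hs := le_of_le_of_eq (sub_ge _ _) (congrArg (Nat.cast (R := ℝ)) hq)
  rc at hc; rc at h0; rc at h1; rc at h2; rc at h3; rc at hr; rc at hs
  have u := scale_mul (z := x * y) (by ring) (mul_core ε.h0 ε.h1 ε.h2 ε.h3 hA hB)
  show Mem _ _ _ _ _ _ _ _
  unfold Mem
  dsimp only at u ⊢
  refine close_core ε.h0 ε.h1 ε.h2 ε.h3 u ?_ ?_ ?_ ?_ ?_ ?_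
  · convert hc using 2; ring
  · convert h0 using 2; ring
  · convert h1 using 2; ring
  · convert h2 using 2; ring
  · convert h3 using 2; ring
  · linarith

theorem sqA_sound {A : AF} (hA : A.mem ε x) (h : sqA A k = true) :
    ∃ C : AF, C.mem ε (x ^ 2) ∧ k C = true := by
  obtain ⟨c, a0, a1, a2, a3, r⟩ := A
  dsimp only [sqA] at h
  replace h := fQ1 h; replace h := fQ1 h; replace h := fQ1 h
  obtain ⟨c', a0', a1', a2', a3', r', hc, h0, h1, h2, h3, hr, hk⟩ := fA_spec h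
  refine ⟨_, ?_, hk⟩
  replace hc := succ_cast hc; replace h0 := shsub h0; replace h1 := shsub h1
  replace h2 := shsub h2; replace h3 := shsub h3; replace hr := succ_cast hr
  have hR := Mem.range hA
  dsimp only at hR
  generalize rad a0 a1 a2 a3 r = R at *
  rw [add_cast] at hr hc
  generalize hq : Nat.add (Nat.mul (Nat.mul 2 _) _) _ = q at hc
  generalize hp : Nat.add (Nat.mul (Nat.mul 4 _) _) _ = p at hr
  have hd := (shr_bd p 33).2
  have he := shr_bd q 33
  replace hq := congrArg (Nat.cast (R := ℝ)) hq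
  replace hp := congrArg (Nat.cast (R := ℝ)) hp
  rc at hc; rc at h0; rc at h1; rc at h2; rc at h3; rc at hr; rc at hq; rc at hp
  have hs := sq_core hA hR
  rw [sq] at hs
  have u := scale_mul (z := x ^ 2) (by ring) hs
  have ee := abs_mul_abs_self ((c : ℝ) - Br)
  show Mem _ _ _ _ _ _ _ _
  unfold Mem
  dsimp only at u ⊢
  refine close_core ε.h0 ε.h1 ε.h2 ε.h3 u ?_ ?_ ?_ ?_ ?_ ?_
  · rw [abs_le]; constructor <;> linarith [he.1, he.2]
  · convert h0 using 2; ring
  · convert h1 using 2; ring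
  · convert h2 using 2; ring
  · convert h3 using 2; ring
  · linarith

end Crest.Agent.Lib.Box
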