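import Crest.Agent.Lib.Box.Ops

/-!
# Box certifier: soundness of the nonlinear operations on affine forms
-/

set_option autoImplicit false

noncomputable section

namespace Crest.Agent.Lib.Box

local macro "rc" " at " h:ident : tactic =>
  `(tactic| simp only [ab_cast2, add_cast, mul_cast, shl_cast, Nat.cast_ofNat, Nat.cast_one] at $h:ident)

variable {ε : Eps} {x y : ℝ} {k : AF → Bool}

theorem nw_spec {n x : ℕ} {k : ℕ → Bool} (h : nw n x k = true) : ∃ m, k m = true := by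
  obtain ⟨m, _, h⟩ := fQ_spec (k := k) h
  exact ⟨m, h⟩

theorem isq_spec {n : ℕ} {k : ℕ → Bool} (h : isq n k = true) : ∃ m, k m = true := by
  unfold isq at h
  obtain ⟨_, -, h⟩ := fQ_spec h
  obtain ⟨_, -, h⟩ := fQ_spec h
  obtain ⟨_, -, h⟩ := fQ_spec h
  obtain ⟨_, h⟩ := nw_spec h
  obtain ⟨_, h⟩ := nw_spec h
  obtain ⟨_, h⟩ := nw_spec h
  exact nw_spec h

theorem sqLo_spec {n x : ℕ} {k : ℕ → Bool} (h : sqLo n x k = true) :
    ∃ s : ℕ, (s : ℝ) * s ≤ n ∧ k s = true := by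
  unfold sqLo at h
  obtain ⟨s, -, h⟩ := fQ_spec h
  obtain ⟨h1, h2⟩ := brec_spec h
  replace h1 := ble_cast h1
  rc at h1
  exact ⟨s, h1, h2⟩

theorem isqHi_spec {n : ℕ} {k : ℕ → Bool} (h : isqHi n k = true) :
    ∃ s : ℕ, (n : ℝ) ≤ s * s ∧ k s = true := by
  unfold isqHi at h
  replace h := fQ1 h
  obtain ⟨x, h⟩ := isq_spec h
  obtain ⟨s, -, h⟩ := fQ_spec h
  obtain ⟨h1, h2⟩ := brec_spec h
  replace h1 := ble_cast h1
  rc at h1
  exact ⟨s, h1, h2⟩

theorem sqrtA_sound {A : AF} (hA : A.mem ε x) (h : sqrtA A k = true) :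
    ∃ C : AF, C.mem ε (√x) ∧ k C = true := by
  obtain ⟨c, a0, a1, a2, a3, r⟩ := A
  have hR := abs_le.1 (Mem.range hA)
  replace hA : Mem ε x c a0 a1 a2 a3 r := hA
  dsimp only [sqrtA] at h hR
  obtain ⟨R, eR, h⟩ := fQ2 h
  rw [eR] at hR
  obtain ⟨hi, ehi, h⟩ := fQ2 h
  have hhi := le_of_le_of_eq (sub_ge _ _) (congrArg (Nat.cast (R := ℝ)) ehi)
  rc at hhi
  have hx2 : 4294967296 * x ≤ hi := by linarith [hR.2]
  rcases brec_cases h with ⟨-, h⟩ | ⟨hb, h⟩
  · obtain ⟨su, hsu, h⟩ := isqHi_spec h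
    rc at hsu
    replace h := fQ1 h
    obtain ⟨c', hc, h⟩ := fQ_spec h
    obtain ⟨r', hr, h⟩ := fQ_spec h
    refine ⟨_, ?_, h⟩
    replace hc := succ_cast hc; replace hr := succ_cast hr
    rc at hc; rc at hr
    have hd := shr_one su
    have h1 := sqrt_top hx2 (Nat.cast_nonneg su) (by linarith)
    have h0 := Real.sqrt_nonneg x
    have h3 := Nat.cast_nonneg (α := ℝ) (Nat.shiftRight su 1)
    show Mem _ _ _ _ _ _ _ _
    unfold Mem
    dsimp only
    rw [hc, hr, abs_le]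
    push_cast
    constructor <;> linarith
  · replace hb := ble_cast hb
    obtain ⟨lo, elo, h⟩ := fQ2 h
    have hlo := (congrArg (Nat.cast (R := ℝ)) elo).symm.trans (sub_of_le hb)
    rc at hlo
    have hx1 : (lo : ℝ) ≤ 4294967296 * x := by linarith [hR.1]
    have hlo0 := Nat.cast_nonneg (α := ℝ) lo
    replace h := fQ1 h; replace h := fQ1 h
    obtain ⟨_, h⟩ := isq_spec h
    obtain ⟨su, hsu, h⟩ := sqLo_spec h
    obtain ⟨_, h⟩ := nw_spec h
    obtain ⟨_, h⟩ := nw_spec h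
    obtain ⟨_, h⟩ := nw_spec h
    obtain ⟨sl, hsl, h⟩ := sqLo_spec h
    obtain ⟨K, hK, h⟩ := fQ_spec h
    obtain ⟨p, hp, h⟩ := fQ_spec h
    obtain ⟨q, hq, h⟩ := fQ_spec h
    replace h := fQ1 h
    obtain ⟨HI, hH, h⟩ := fQ_spec h
    have hK0 : 0 < K := by
      have : ∀ z, Nat.add z 2 = K + 1 → 0 < K := fun z hz => by
        have : z + 2 = K + 1 := hz
        omega
      exact this _ hK
    have hK1 : (0 : ℝ) < K := by exact_mod_cast hK0
    replace hp := sub_succ hp; replace hq := sub_succ hq; replace hH := succ_cast hH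
    have d1 := (shr_bd (Nat.mul K lo) 32).2
    have d2 := (shr_bd (Nat.mul K hi) 32).2
    have d3 := (div_bd 4611686018427387904 K hK0).2
    rc at hsu; rc at hsl; rc at hp; rc at hq; rc at hH; rc at d1; rc at d2; rc at d3
    refine linP_sound hA ?_ ?_ h
    · refine sqrt_lo (sl := sl) (su := su) hK1.le hlo0 hx1 hx2 (by linarith) (by linarith) ?_ ?_
      · linarith [min_le1 p q]
      · linarith [min_le2 p q]
    · refine sqrt_hi hK1 (by linarith) ?_
      rw [div_lt_iff₀ hK1] at d3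
      rw [hH]; linarith

theorem invA_sound {A : AF} (hA : A.mem ε x) (h : invA A k = true) :
    ∃ C : AF, C.mem ε x⁻¹ ∧ k C = true := by
  obtain ⟨c, a0, a1, a2, a3, r⟩ := A
  have hR := abs_le.1 (Mem.range hA)
  replace hA : Mem ε x c a0 a1 a2 a3 r := hA
  dsimp only [invA] at h hR
  obtain ⟨R, eR, h⟩ := fQ2 h
  rw [eR] at hR
  obtain ⟨lo', hlo', h⟩ := fQ_spec h
  obtain ⟨lo, hlo, h⟩ := fQ_spec h
  obtain ⟨hi, ehi, h⟩ := fQ2 h
  have hhi := le_of_le_of_eq (sub_ge _ _) (congrArg (Nat.cast (R := ℝ)) ehi)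
  replace hlo' := sub_succ hlo'; replace hlo := succ_cast hlo
  rc at hhi; rc at hlo'; rc at hlo
  have hx2 : 4294967296 * x ≤ hi := by linarith [hR.2]
  have hx1 : (lo : ℝ) ≤ 4294967296 * x := by linarith [hR.1]
  have hl0 : (0 : ℝ) < lo := by linarith [Nat.cast_nonneg (α := ℝ) lo']
  have hh0 : (0 : ℝ) < hi := by linarith
  obtain ⟨K, -, h⟩ := fQ_spec h
  replace h := fQ1 h
  obtain ⟨_, h⟩ := isq_spec h
  obtain ⟨s, hs, h⟩ := sqLo_spec h
  obtain ⟨p, hp, h⟩ := fQ_spec h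
  obtain ⟨q, hq, h⟩ := fQ_spec h
  obtain ⟨LO, hL, h⟩ := fQ_spec h
  replace h := fQ1 h
  replace hp := succ_cast hp; replace hq := succ_cast hq; replace hL := succ_cast hL
  have d1 := (shr_bd (Nat.mul K lo) 32).2
  have d2 := (shr_bd (Nat.mul K hi) 32).2
  have d3 := (div_bd 18446744073709551616 lo (by exact_mod_cast hl0)).2
  have d4 := (div_bd 18446744073709551616 hi (by exact_mod_cast hh0)).2
  rc at hs; rc at hp; rc at hq; rc at hL; rc at d1; rc at d2; rc at d3; rc at d4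
  refine linN_sound hA ?_ ?_ h
  · have := inv_lo (K := K) (x := x) (s := s) (Nat.cast_nonneg K) (by linarith) (by linarith)
    linarith
  · refine inv_hi hl0 hx1 hx2 ?_ ?_
    · linarith [max_ge1 p q]
    · linarith [max_ge2 p q]

theorem nnA_sound {A : AF} (hA : A.mem ε x) (h : nnA A = true) : 0 ≤ x := by
  obtain ⟨c, a0, a1, a2, a3, r⟩ := A
  have hR := abs_le.1 (Mem.range hA)
  dsimp only [nnA] at h hR
  replace h := ble_cast h
  rc at h
  linarith [hR.1]

theorem posA_sound {A : AF} (hA : A.mem ε x) (h : posA A = true) : 0 < x := by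
  obtain ⟨c, a0, a1, a2, a3, r⟩ := A
  have hR := abs_le.1 (Mem.range hA)
  dsimp only [posA] at h hR
  replace h := ble_cast h
  rc at h
  linarith [hR.1]

theorem ppA_sound {A : AF} (hA : A.mem ε x) (h : ppA A k = true) :
    ∃ C : AF, C.mem ε (max x 0) ∧ k C = true := by
  obtain ⟨c, a0, a1, a2, a3, r⟩ := A
  have hR := abs_le.1 (Mem.range hA)
  replace hA : Mem ε x c a0 a1 a2 a3 r := hA
  dsimp only [ppA] at h hR
  obtain ⟨R, eR, h⟩ := fQ2 h
  rw [eR] at hR
  rcases brec_cases h with ⟨-, h⟩ | ⟨hb, h⟩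
  · obtain ⟨lo, elo, h⟩ := fQ2 h
    obtain ⟨hi, ehi, h⟩ := fQ2 h
    have hhi := le_of_le_of_eq (sub_ge _ _) (congrArg (Nat.cast (R := ℝ)) ehi)
    have hlo := le_of_le_of_eq (sub_ge _ _) (congrArg (Nat.cast (R := ℝ)) elo)
    obtain ⟨K, -, h⟩ := fQ_spec h
    obtain ⟨p, hp, h⟩ := fQ_spec h
    obtain ⟨q, hq, h⟩ := fQ_spec h
    obtain ⟨HI, hH, h⟩ := fQ_spec h
    obtain ⟨hK, h⟩ := brec_spec h
    replace hK := ble_cast hK
    have hs := sub_of_le hK
    replace hp := succ_cast hp; replace hq := succ_cast hq; replace hH := succ_cast hH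
    have d1 := (shr_bd (Nat.add p (Nat.sub q p)) 32).2
    have m1 := max_ge1 p q
    have m2 := max_ge2 p q
    generalize Nat.add p (Nat.sub q p) = M at d1 m1 m2 hH
    rc at hhi; rc at hlo; rc at hK; rc at hs; rc at hp; rc at hq; rc at hH
    rw [hs] at hq
    refine linP_sound hA ?_ ?_ h
    · have := pp_lo (x := x) (Nat.cast_nonneg K) hK
      push_cast; linarith
    · refine pp_hi (l := lo) (h := hi) (Nat.cast_nonneg K) hK (by linarith [hR.1])
        (by linarith [hR.2]) ?_ ?_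
      · linarith
      · linarith
  · replace hb := ble_cast hb
    rc at hb
    refine ⟨_, ?_, h⟩
    rw [max_eq_left (by linarith [hR.1])]
    exact hA

end Crest.Agent.Lib.Box
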