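import Crest.Agent.Lib.Box.Ops2

/-!
# Box certifier: soundness of the check

`chk_sound : chk f B s = true → Holds f B`.  `Holds f B` says that at every point of the box
(scaled by `2^32`) the formula `f` holds for some values of the three parameters.
-/

set_option autoImplicit false

noncomputable section

namespace Crest.Agent.Lib.Box

section ev
variable {env : ℕ → AF} {k : AF → Bool} {a b : Ex} {n : ℕ}
theorem ev_add : (Ex.add a b).ev env k = a.ev env fun A => b.ev env fun B => addA A B k := by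
  unfold Ex.ev; rfl
theorem ev_sub : (Ex.sub a b).ev env k = a.ev env fun A => b.ev env fun B => subA A B k := by
  unfold Ex.ev; rfl
theorem ev_mul : (Ex.mul a b).ev env k = a.ev env fun A => b.ev env fun B => mulA A B k := by
  unfold Ex.ev; rfl
theorem ev_neg : (Ex.neg a).ev env k = a.ev env fun A => negA A k := by
  unfold Ex.ev; rfl
theorem ev_sq : (Ex.sq a).ev env k = a.ev env fun A => sqA A k := by
  unfold Ex.ev; rfl
theorem ev_sqrt : (Ex.sqrt a).ev env k = a.ev env fun A => sqrtA A k := by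
  unfold Ex.ev; rfl
theorem ev_inv : (Ex.inv a).ev env k = a.ev env fun A => invA A k := by
  unfold Ex.ev; rfl
theorem ev_pp : (Ex.pp a).ev env k = a.ev env fun A => ppA A k := by
  unfold Ex.ev; rfl
theorem ev_nmul : (Ex.nmul n a).ev env k = a.ev env fun A => nmulA n A k := by
  unfold Ex.ev; rfl
theorem ev_ndiv : (Ex.ndiv n a).ev env k = a.ev env fun A => ndivA n A k := by
  unfold Ex.ev; rfl
end ev

theorem Ex.ev_sound {ε : Eps} {ρ : ℕ → ℝ} {env : ℕ → AF} (H : ∀ i, (env i).mem ε (ρ i)) (e : Ex) :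
    ∀ {k : AF → Bool}, e.ev env k = true → ∃ C : AF, C.mem ε (e.val ρ) ∧ k C = true := by
  induction e with
  | v i =>
    intro k h
    refine ⟨env i, H i, ?_⟩
    exact h
  | cst n d => intro k h; exact cstA_sound h
  | nat n => intro k h; exact natA_sound h
  | add a b ia ib =>
    intro k h
    obtain ⟨A, hA, h⟩ := ia (ev_add.symm.trans h)
    obtain ⟨B, hB, h⟩ := ib h
    exact addA_sound hA hB h
  | sub a b ia ib =>
    intro k h
    obtain ⟨A, hA, h⟩ := ia (ev_sub.symm.trans h)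
    obtain ⟨B, hB, h⟩ := ib h
    exact subA_sound hA hB h
  | neg a ia =>
    intro k h
    obtain ⟨A, hA, h⟩ := ia (ev_neg.symm.trans h)
    exact negA_sound hA h
  | nmul n a ia =>
    intro k h
    obtain ⟨A, hA, h⟩ := ia (ev_nmul.symm.trans h)
    exact nmulA_sound hA h
  | ndiv n a ia =>
    intro k h
    obtain ⟨A, hA, h⟩ := ia (ev_ndiv.symm.trans h)
    exact ndivA_sound hA h
  | mul a b ia ib =>
    intro k h
    obtain ⟨A, hA, h⟩ := ia (ev_mul.symm.trans h)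
    obtain ⟨B, hB, h⟩ := ib h
    exact mulA_sound hA hB h
  | sq a ia =>
    intro k h
    obtain ⟨A, hA, h⟩ := ia (ev_sq.symm.trans h)
    exact sqA_sound hA h
  | sqrt a ia =>
    intro k h
    obtain ⟨A, hA, h⟩ := ia (ev_sqrt.symm.trans h)
    exact sqrtA_sound hA h
  | inv a ia =>
    intro k h
    obtain ⟨A, hA, h⟩ := ia (ev_inv.symm.trans h)
    exact invA_sound hA h
  | pp a ia =>
    intro k h
    obtain ⟨A, hA, h⟩ := ia (ev_pp.symm.trans h)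
    exact ppA_sound hA h

theorem Fm.ev_sound {ε : Eps} (f : Fm) : ∀ {ρ : ℕ → ℝ} {env : ℕ → AF},
    (∀ i, (env i).mem ε (ρ i)) → f.ev env = true → f.sem ρ := by
  induction f with
  | ge e =>
    intro ρ env H h
    obtain ⟨A, hA, h⟩ := e.ev_sound H (k := nnA) h
    exact nnA_sound hA h
  | gt e =>
    intro ρ env H h
    obtain ⟨A, hA, h⟩ := e.ev_sound H (k := posA) h
    exact posA_sound hA h
  | and f g i1 i2 =>
    intro ρ env H h
    obtain ⟨h1, h2⟩ := brec_spec (a := g.ev env) (b := f.ev env) h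
    exact ⟨i1 H h1, i2 H h2⟩
  | or f g i1 i2 =>
    intro ρ env H h
    rcases brec_cases (a := g.ev env) (b := true) (c := f.ev env) h with ⟨-, h⟩ | ⟨h, -⟩
    · exact Or.inr (i2 H h)
    · exact Or.inl (i1 H h)
  | lt i e f ih =>
    intro ρ env H h
    obtain ⟨A, hA, h⟩ := e.ev_sound H (k := fun A => f.ev (upd env i A)) h
    refine ih (fun j => ?_) h
    unfold upd
    cases Nat.beq j i
    · exact H j
    · exact hA

/-- the formula holds on the box (scaled by `2^32`) for some parameters -/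
def Holds (f : Fm) (B : Bx) : Prop :=
  ∀ x0 x1 x2 x3 : ℝ, (B.l0 : ℝ) ≤ 4294967296 * x0 → 4294967296 * x0 ≤ B.h0 →
    (B.l1 : ℝ) ≤ 4294967296 * x1 → 4294967296 * x1 ≤ B.h1 →
    (B.l2 : ℝ) ≤ 4294967296 * x2 → 4294967296 * x2 ≤ B.h2 →
    (B.l3 : ℝ) ≤ 4294967296 * x3 → 4294967296 * x3 ≤ B.h3 →
    ∃ t0 t1 t2 : ℝ, 0 ≤ t0 ∧ 0 ≤ t1 ∧ 0 ≤ t2 ∧ f.sem (mkEnv x0 x1 x2 x3 t0 t1 t2)

theorem eps_ex {l h m w : ℕ} {x : ℝ} (h1 : (l : ℝ) ≤ 4294967296 * x) (h2 : 4294967296 * x ≤ h)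
    (hm : Nat.add (Nat.shiftRight (Nat.add l h) 1) 1152921504606846977 = m + 1)
    (hw : Nat.sub (Nat.add h 2305843009213693953) m = w + 1) :
    ∃ e : ℝ, |e| ≤ 1 ∧
      4294967296 * x = (m - 1152921504606846976) + (w - 1152921504606846976) * e := by
  replace hm := succ_cast hm
  replace hw := sub_succ hw
  have d := (shr_bd (Nat.add l h) 1).1
  simp only [add_cast, Nat.cast_ofNat] at hm hw d
  by_cases h0 : (w : ℝ) - 1152921504606846976 = 0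
  · exact ⟨0, by simp, by linarith⟩
  · have hp : 0 < (w : ℝ) - 1152921504606846976 := lt_of_le_of_ne (by linarith) (Ne.symm h0)
    refine ⟨(4294967296 * x - (m - 1152921504606846976)) / (w - 1152921504606846976), ?_, ?_⟩
    · rw [abs_div, abs_of_pos hp, div_le_one hp, abs_le]
      constructor <;> linarith
    · field_simp; ring

theorem par_mem {ε : Eps} {t c : ℕ} (h : Nat.add (Nat.shiftLeft t 18) 1152921504606846977 = c + 1) :
    Mem ε ((t : ℝ) / 16384) c 1152921504606846976 1152921504606846976 1152921504606846976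
      1152921504606846976 0 := by
  replace h := succ_cast h
  simp only [add_cast, shl_cast, Nat.cast_ofNat] at h
  unfold Mem
  rw [h, abs_le]
  push_cast
  constructor <;> linarith

theorem leaf_sound {f : Fm} {l0 h0 l1 h1 l2 h2 l3 h3 t0 t1 t2 : ℕ}
    (h : leaf f l0 h0 l1 h1 l2 h2 l3 h3 t0 t1 t2 = true) :
    Holds f ⟨l0, h0, l1, h1, l2, h2, l3, h3⟩ := by
  intro x0 x1 x2 x3 a0 b0 a1 b1 a2 b2 a3 b3
  dsimp only [leaf] at h a0 b0 a1 b1 a2 b2 a3 b3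
  obtain ⟨m0, hm0, h⟩ := fQ_spec h
  obtain ⟨m1, hm1, h⟩ := fQ_spec h
  obtain ⟨m2, hm2, h⟩ := fQ_spec h
  obtain ⟨m3, hm3, h⟩ := fQ_spec h
  obtain ⟨w0, hw0, h⟩ := fQ_spec h
  obtain ⟨w1, hw1, h⟩ := fQ_spec h
  obtain ⟨w2, hw2, h⟩ := fQ_spec h
  obtain ⟨w3, hw3, h⟩ := fQ_spec h
  obtain ⟨s0, hs0, h⟩ := fQ_spec h
  obtain ⟨s1, hs1, h⟩ := fQ_spec h
  obtain ⟨s2, hs2, h⟩ := fQ_spec h
  obtain ⟨e0, p0, q0⟩ := eps_ex a0 b0 hm0 hw0
  obtain ⟨e1, p1, q1⟩ := eps_ex a1 b1 hm1 hw1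
  obtain ⟨e2, p2, q2⟩ := eps_ex a2 b2 hm2 hw2
  obtain ⟨e3, p3, q3⟩ := eps_ex a3 b3 hm3 hw3
  refine ⟨t0 / 16384, t1 / 16384, t2 / 16384, by positivity, by positivity, by positivity,
    f.ev_sound (ε := ⟨e0, e1, e2, e3, p0, p1, p2, p3⟩) (fun j => ?_) h⟩
  unfold mkEnv
  cases Nat.ble j (nat_lit 3)
  · cases Nat.beq j (nat_lit 4)
    · cases Nat.beq j (nat_lit 5)
      · exact par_mem hs2
      · exact par_mem hs1
    · exact par_mem hs0
  · cases Nat.ble j (nat_lit 1)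
    · cases Nat.beq j (nat_lit 2)
      · show Mem _ x3 _ _ _ _ _ _
        unfold Mem; rw [q3]; push_cast; simp
      · show Mem _ x2 _ _ _ _ _ _
        unfold Mem; rw [q2]; push_cast; simp
    · cases Nat.beq j (nat_lit 0)
      · show Mem _ x1 _ _ _ _ _ _
        unfold Mem; rw [q1]; push_cast; simp
      · show Mem _ x0 _ _ _ _ _ _
        unfold Mem; rw [q0]; push_cast; simp

variable {f : Fm} {l0 h0 l1 h1 l2 h2 l3 h3 m : ℕ}

theorem Holds.join0 (p : Holds f ⟨l0, m, l1, h1, l2, h2, l3, h3⟩)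
    (q : Holds f ⟨m, h0, l1, h1, l2, h2, l3, h3⟩) : Holds f ⟨l0, h0, l1, h1, l2, h2, l3, h3⟩ := by
  intro x0 x1 x2 x3 a0 b0 a1 b1 a2 b2 a3 b3
  rcases le_total (4294967296 * x0) m with h | h
  · exact p x0 x1 x2 x3 a0 h a1 b1 a2 b2 a3 b3
  · exact q x0 x1 x2 x3 h b0 a1 b1 a2 b2 a3 b3

theorem Holds.join1 (p : Holds f ⟨l0, h0, l1, m, l2, h2, l3, h3⟩)
    (q : Holds f ⟨l0, h0, m, h1, l2, h2, l3, h3⟩) : Holds f ⟨l0, h0, l1, h1, l2, h2, l3, h3⟩ := by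
  intro x0 x1 x2 x3 a0 b0 a1 b1 a2 b2 a3 b3
  rcases le_total (4294967296 * x1) m with h | h
  · exact p x0 x1 x2 x3 a0 b0 a1 h a2 b2 a3 b3
  · exact q x0 x1 x2 x3 a0 b0 h b1 a2 b2 a3 b3

theorem Holds.join2 (p : Holds f ⟨l0, h0, l1, h1, l2, m, l3, h3⟩)
    (q : Holds f ⟨l0, h0, l1, h1, m, h2, l3, h3⟩) : Holds f ⟨l0, h0, l1, h1, l2, h2, l3, h3⟩ := by
  intro x0 x1 x2 x3 a0 b0 a1 b1 a2 b2 a3 b3
  rcases le_total (4294967296 * x2) m with h | h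
  · exact p x0 x1 x2 x3 a0 b0 a1 b1 a2 h a3 b3
  · exact q x0 x1 x2 x3 a0 b0 a1 b1 h b2 a3 b3

theorem Holds.join3 (p : Holds f ⟨l0, h0, l1, h1, l2, h2, l3, m⟩)
    (q : Holds f ⟨l0, h0, l1, h1, l2, h2, m, h3⟩) : Holds f ⟨l0, h0, l1, h1, l2, h2, l3, h3⟩ := by
  intro x0 x1 x2 x3 a0 b0 a1 b1 a2 b2 a3 b3
  rcases le_total (4294967296 * x3) m with h | h
  · exact p x0 x1 x2 x3 a0 b0 a1 b1 a2 b2 a3 h
  · exact q x0 x1 x2 x3 a0 b0 a1 b1 a2 b2 h b3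

theorem gQ_spec {n : ℕ} {k : ℕ → ℕ} (h : gQ n k ≠ 0) : ∃ m, n = m + 1 ∧ k m ≠ 0 := by
  cases n with
  | zero => exact absurd rfl h
  | succ m => exact ⟨m, rfl, h⟩

theorem brecN {a b : ℕ} {c : Bool} (h : (Bool.rec a b c : ℕ) ≠ 0) :
    (c = false ∧ a ≠ 0) ∨ (c = true ∧ b ≠ 0) := by
  cases c
  · exact Or.inl ⟨rfl, h⟩
  · exact Or.inr ⟨rfl, h⟩

theorem step_sound {f : Fm} {g : ℕ → ℕ → ℕ → ℕ → ℕ → ℕ → ℕ → ℕ → ℕ → ℕ}
    (ih : ∀ l0 h0 l1 h1 l2 h2 l3 h3 s : ℕ,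
      g l0 h0 l1 h1 l2 h2 l3 h3 s ≠ 0 → Holds f ⟨l0, h0, l1, h1, l2, h2, l3, h3⟩)
    {l0 h0 l1 h1 l2 h2 l3 h3 s : ℕ} (h : step f g l0 h0 l1 h1 l2 h2 l3 h3 s ≠ 0) :
    Holds f ⟨l0, h0, l1, h1, l2, h2, l3, h3⟩ := by
  unfold step at h
  obtain ⟨d, -, h⟩ := gQ_spec h
  obtain ⟨s', -, h⟩ := gQ_spec h
  have ne : ∀ {a b : ℕ}, a = b + 1 → a ≠ 0 := fun e => e ▸ Nat.succ_ne_zero _
  rcases brecN h with ⟨-, h⟩ | ⟨-, h⟩
  · generalize hl : leaf _ _ _ _ _ _ _ _ _ _ _ _ = b at h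
    cases b
    · exact absurd rfl h
    · exact leaf_sound hl
  · rcases brecN h with ⟨-, h⟩ | ⟨-, h⟩ <;> rcases brecN h with ⟨-, h⟩ | ⟨-, h⟩ <;>
      obtain ⟨m, -, h⟩ := gQ_spec h <;> obtain ⟨s'', e, h⟩ := gQ_spec h
    · exact Holds.join3 (ih _ _ _ _ _ _ _ _ _ (ne e)) (ih _ _ _ _ _ _ _ _ _ h)
    · exact Holds.join2 (ih _ _ _ _ _ _ _ _ _ (ne e)) (ih _ _ _ _ _ _ _ _ _ h)
    · exact Holds.join1 (ih _ _ _ _ _ _ _ _ _ (ne e)) (ih _ _ _ _ _ _ _ _ _ h)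
    · exact Holds.join0 (ih _ _ _ _ _ _ _ _ _ (ne e)) (ih _ _ _ _ _ _ _ _ _ h)

theorem go_sound (f : Fm) (fuel : ℕ) : ∀ l0 h0 l1 h1 l2 h2 l3 h3 s : ℕ,
    go f fuel l0 h0 l1 h1 l2 h2 l3 h3 s ≠ 0 → Holds f ⟨l0, h0, l1, h1, l2, h2, l3, h3⟩ := by
  induction fuel with
  | zero => intro _ _ _ _ _ _ _ _ _ h; exact absurd rfl h
  | succ n ih => intro l0 h0 l1 h1 l2 h2 l3 h3 s h; exact step_sound (g := go f n) ih h

theorem chk_sound {f : Fm} {B : Bx} {s : ℕ} (h : chk f B s = true) : Holds f B := by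
  obtain ⟨l0, h0, l1, h1, l2, h2, l3, h3⟩ := B
  refine go_sound f 200 _ _ _ _ _ _ _ _ s fun e => ?_
  have h' : Nat.ble 1 (go f 200 l0 h0 l1 h1 l2 h2 l3 h3 s) = true := h
  rw [e] at h'
  exact absurd h' (by decide)

end Crest.Agent.Lib.Box
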