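import Crest.Agent.Lib.Box.Sound

/-!
# Box certifier: turning `Holds` into an ordinary inequality

`box_simp fm at h` unfolds `Fm.sem fm (mkEnv ..)`; `box_bd` proves the side conditions
`(l : ℝ) ≤ 2^32 * x` from linear hypotheses in the context.
-/

set_option autoImplicit false

namespace Crest.Agent.Lib.Box

theorem upd_apply {α : Type} (env : ℕ → α) (i : ℕ) (a : α) (j : ℕ) :
    upd env i a j = if j = i then a else env j := by
  unfold upd
  by_cases h : j = i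
  · subst h; rw [if_pos rfl, Nat.beq_refl]
  · rw [if_neg h]
    cases hb : Nat.beq j i
    · rfl
    · exact absurd (Nat.eq_of_beq_eq_true hb) h

section
variable {α : Type} (x0 x1 x2 x3 t0 t1 t2 : α)
theorem mkEnv_0 : mkEnv x0 x1 x2 x3 t0 t1 t2 0 = x0 := rfl
theorem mkEnv_1 : mkEnv x0 x1 x2 x3 t0 t1 t2 1 = x1 := rfl
theorem mkEnv_2 : mkEnv x0 x1 x2 x3 t0 t1 t2 2 = x2 := rfl
theorem mkEnv_3 : mkEnv x0 x1 x2 x3 t0 t1 t2 3 = x3 := rfl
theorem mkEnv_4 : mkEnv x0 x1 x2 x3 t0 t1 t2 4 = t0 := rfl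
theorem mkEnv_5 : mkEnv x0 x1 x2 x3 t0 t1 t2 5 = t1 := rfl
theorem mkEnv_6 : mkEnv x0 x1 x2 x3 t0 t1 t2 6 = t2 := rfl
end

/-- unfold the meaning of a formula -/
macro "box_simp " f:term " at " h:ident : tactic =>
  `(tactic| simp only [$f:term, Fm.sem, Ex.val, upd_apply, mkEnv_0, mkEnv_1, mkEnv_2, mkEnv_3, mkEnv_4,
      mkEnv_5, mkEnv_6, Nat.reduceEqDiff, OfNat.ofNat_ne_one, OfNat.ofNat_ne_zero, OfNat.one_ne_ofNat,
      OfNat.zero_ne_ofNat, ↓reduceIte, Nat.cast_ofNat, Nat.cast_one, Nat.cast_zero] at $h:ident)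

/-- the side conditions of `Holds` -/
macro "box_bd" : tactic => `(tactic| (push_cast; linarith))

/-- example: the formula `0 ≤ sqrt x * sqrt (1 - x) + y - x * y - 1 / 5` with two registers -/
def demo_fm : Fm :=
  .lt 7 (.sqrt (.v 0)) (.lt 8 (.sqrt (.sub (.nat 1) (.v 0)))
    (.ge (.sub (.sub (.add (.mul (.v 7) (.v 8)) (.v 1)) (.mul (.v 0) (.v 1))) (.cst 1 4))))

theorem demo_ok : Holds demo_fm ⟨268435456, 4026531840, 0, 4294967296, 0, 0, 0, 0⟩ :=
  chk_sound (s := 0x4860820) (by decide +kernel)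

theorem demo (x y : ℝ) (h1 : 1 / 16 ≤ x) (h2 : x ≤ 15 / 16) (h3 : 0 ≤ y) (h4 : y ≤ 1) :
    1 / 5 + x * y ≤ √x * √(1 - x) + y := by
  obtain ⟨_, _, _, -, -, -, h⟩ := demo_ok x y 0 0 (by box_bd) (by box_bd) (by box_bd) (by box_bd)
    (by box_bd) (by box_bd) (by box_bd) (by box_bd)
  box_simp demo_fm at h
  linarith

end Crest.Agent.Lib.Box
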